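import Claimed.Agent.R285.Asm.RawSys
import Claimed.Agent.R285.Read.B8b
import Claimed.Agent.R285.Read.F4b

/-!
# ROW 285, ASSEMBLY 4 (owner helper27): THE CONCRETE SYSTEM.  DEFINITIONS ONLY (no sorry)

`Asm.raw_system_center` (`Asm/Concrete.lean`) asks for a family of `RawSys`.  This file fixes WHICH system it is, so that every producer can state its top contract against the same object.

* spaces, maps, pure entries: MAP-PACK (`Read/B8b.lean`: `Cfg.Pl`, `Cfg.To`, `Cfg.Phi`, `Cfg.Psi`, `Cfg.Ops`, `Cfg.eExp`, `Cfg.eExpT`);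
* physical entries: ENTRY (`Read/F4b.lean`: `EntryData.K0` in the volume `vol` = torus `h`, cells of side `sd`, blocks of side `L^{min j h}`), put into the spaces by `Cfg.plMk`, `Cfg.toMk`;
* regulators: `obsReg` = observation cells of side `sd` on every torus, observation regulator at every level (TOWER); RETAINED tori: `h ≥ hmin` = first valid stop (ENTRY exists only there);
  the torus entries `T0 j h` of the smaller tori are `0` (they are never read: `rep*`, `cmp*` are for valid stops only);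
* read-outs and cutoff observables: READOUT (a record `Rd`, to be defined in `R285/Rdo/Defs.lean`).
The assembly itself (proof of the root contract from the top contracts of the producers) is `R285/Asm/Concrete.lean`.

## THE PARAMETER PROTOCOL (order of ALL choices; a top contract may let its constants depend only on what is chosen BEFORE them)
 P0  numerals: `a = k0 = 8π`, `ω8`, `RR`, `pp`, `r0`.
 P1  ENTRY-1 (`F4b.initialization xyCritical k0`): `cstar, δ0E, kq, cmk, c0E`, THE CONSTRUCTION `D`.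
 P2  `o : ObsPar`, `o.a = k0`, `1 - cstar < o.hstar`.
 P3  TOWER-1 (`o`): kernel constants `Ck, ck`, `n0`, `D1R`, `δ0R`.            `δ := min δ0E δ0R`.
 P4  ENTRY-2 (`o, δ`): `κ0E`;  TOWER-2 (`δ`): `κ0R`.                          `κ := min κ0E κ0R`.
 P5  TOWER-3 (`κ`): per-block costs `cst`, `cT`, `ℓ0R`.                       `c : Geo` is complete now;  `c0 := max c0E (2 (c.ρ + 4))`.
 P6  MAP-1 (`B8.raw_system c cT c0`): `C1`.                                   `h0 := C1`.
 P7  MAP-2 (`δ, κ, h0, θ := 1/2`): `ℓ0M, D1M`.                                `ℓ := max ℓ0R ℓ0M`.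
 P8  MAP-3 (`ℓ`): `A0`.                                                       `A := max A0 1`;  `D0` even, `≥ max D1R D1M`.   `X : Fixed` is complete now.
 P9  MAP-4 (`A, D0`): `κr, jmin, d1, Hq, Cb`.
 P10 READOUT-1, CUTGRID-1, OBS-1 (`X`, `κr`, `cT`): read-out constants (`C`, `c`, radius), `p h`, `w0`, `κo`.      `K : RawK` and `κo` are complete now.
 P11 ENTRY-3 (`h0, A`): `C, c, k1`.
 --- given `δ' > 0` ---
 P12 `kR ≥ k1` with `ε := C e^{-c 2^kR}`, `P0 := 2^{5 kR}`:  `ε P0 ≤ δ'`, `1 / P0 ≤ δ'`.       `q0 := 2^{kq + kR}`.   (`cmk` of the marked squares goes into `κe.C`.)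
 P13 ENTRY-4 (`kR`): `CR, cR, k0`;  READOUT-2, CUTGRID-2, OBS-2 (`kR`): `Ce, ce, s0`.                 `κe : EntC` is complete now.
 --- given an admissible side `sd`, `q0 * sd = L^{j0}` (so `sd = 2^ks`), `sd ≥ κe.s0` (so `ks ≥ k0`, `j0 ≥ jmin`) ---
 P14 `𝓡 := obsReg X.K.s X.o sd P0`;  TOWER-4: `TowerOK`, `TermOK`, `IsObs`;  MAP-5: `ops` with `Sys8`;  `rd` = the explicit record of READOUT;  `S sd := X.sys sd P0 j0 ops rd`.
 Hypotheses available to READOUT / CUTGRID / OBS / ENT-SPACE at P14: `TowerOK`, `TermOK`, `IsObs` at all levels `j0 ≤ j ≤ h`, `Sys8` (all fields), and for ALL volumes `vol`: `BulkOK`, `CopyOK` (and `UnitOK` on squares).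
-/

set_option autoImplicit false

namespace Claimed.Agent.R285.Asm

open scoped BigOperators ENNReal NNReal
open Filter Topology Claims.C0459
open Claimed.Agent.R285.RG Claimed.Agent.R285.B4 Claimed.Agent.R285.B8

noncomputable section

/-- the volume of ENTRY: torus `h`, observation cells of side `sd`, blocks of side `L^{min j h}`.  `(vol ..).g` IS `s.lev h j`, `(vol ..).c` is the grid of cells. -/
def vol (s : Sc) (sd h j : ℕ) (hsd : sd ∣ s.L ^ (min j h)) : F4b.Vol := ⟨s.T h, sd, s.L ^ (min j h), hsd, s.dvd h j⟩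

open Classical in
/-- the centred entry activity on the torus `h` at the level `j` (junk `0` if the cells do not divide the blocks) -/
def entAct (s : Sc) (D : F4b.EntryData) (sd h j : ℕ) (b : ℂ) : Act (s.lev h j) :=
  if hsd : sd ∣ s.L ^ (min j h) then D.K0 (vol s sd h j hsd) b else 0

/-- the first valid stop: the smallest torus of side `≥ sd P₀` (`F4b.Vol.Adm.side`, `Asm.ValidR`); smaller tori are not retained in the plane family -/
def hmin (s : Sc) (sd P0 : ℕ) : ℕ := sInf {h | sd * P0 ≤ s.D0 * s.L ^ h}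

open Classical in
/-- **the tower of observation regulators**: cells of side `sd` on every torus; at every level THE observation regulator (`F4a.IsObs` determines its values), with the separation of `B4.obs_extra`;
junk (`lev h 0`, `Extra.zero`) where it does not exist -/
def obsReg (s : Sc) (o : ObsPar) (sd P0 : ℕ) : Reg s where
  gs := fun h => if hd : sd ∣ (s.T h).M then torusGrid (s.T h) sd hd else s.lev h 0
  V := fun h j =>
    if hx : ∃ V : Extra (s.lev h j),
        F4a.IsObs o (if hd : sd ∣ (s.T h).M then torusGrid (s.T h) sd hd else s.lev h 0) (s.lev h j) V ∧ V.sep ≤ 2 * pp + 8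
    then hx.choose else Extra.zero _
  hmin := hmin s sd P0

/-- the read-outs of READOUT -/
structure Rd (K : Cfg) (𝓡 : Reg K.s) where
  rV : ∀ h, (ℂ × ℂ) × K.To 𝓡 h h → ℂ
  rP : ∀ h, (ℂ × ℂ) × K.To 𝓡 h h → ℂ
  rM : ∀ h, (ℂ × ℂ) × K.To 𝓡 h h → ℂ
  v0 : ℕ → ℝ
  kV : ℕ → ℝ
  kP : ℕ → ℝ
  kM : ℕ → ℝ
  pG : ℕ → ℝ
  cV : ℕ → ℝ → ℝ
  cP : ℕ → ℝ → ℝ
  cM : ℕ → ℝ → ℝ

/-- **THE CONCRETE SYSTEM** of the observation side `sd`, entry index `j0` -/
def concSys (K : Cfg) (𝓡 : Reg K.s) (hA : 0 < K.p.A) (j0 : ℕ) (o : K.Ops 𝓡) (D : F4b.EntryData) (sd : ℕ) (rd : Rd K 𝓡) : RawSys where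
  F := K.raw 𝓡 hA j0 o
  T := K.To 𝓡
  cT := fun j h => (actSp_isClosed K.p hA K.c.col K.c.R (K.s.lev h j) (𝓡.gs h) (𝓡.V h j)).completeSpace_coe
  Ψ := K.Psi 𝓡
  σT := o.σT
  K0 := fun j b => K.plMk 𝓡 j fun i => cutW K.c0 (entAct K.s D sd i.1 j b)
  T0 := fun j h b => if 𝓡.hmin ≤ h then K.toMk 𝓡 j h (entAct K.s D sd h j b) else 0
  e := fun j d => K.eExp 𝓡 j d 0
  eT := fun j h d => K.eExpT 𝓡 j h d 0
  rV := rd.rV
  rP := rd.rP
  rM := rd.rM
  v0 := rd.v0
  kV := rd.kV
  kP := rd.kP
  kM := rd.kM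
  pG := rd.pG
  cV := rd.cV
  cP := rd.cP
  cM := rd.cM

/-- everything which is fixed BEFORE the entry parameter (P0-P8 of the protocol) -/
structure Fixed where
  K : Cfg
  hA : 0 < K.p.A
  o : ObsPar
  D : F4b.EntryData
  kq : ℕ

/-- the regulators of the side `sd`; `P0 = R⁵` -/
def Fixed.reg (X : Fixed) (sd P0 : ℕ) : Reg X.K.s := obsReg X.K.s X.o sd P0

/-- the system of the side `sd` with entry index `j0` -/
def Fixed.sys (X : Fixed) (sd P0 j0 : ℕ) (ops : X.K.Ops (X.reg sd P0)) (rd : Rd X.K (X.reg sd P0)) : RawSys :=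
  concSys X.K (X.reg sd P0) X.hA j0 ops X.D sd rd

end

end Claimed.Agent.R285.Asm
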