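import Claimed.Agent.R285.Asm.ConcDefs
import Claimed.Agent.R285.Map.Sym

/-!
# ROW 285, post BP-ENT-SPACE: the physical entries as points of the Banach spaces of MAP        (owner helper38)

TOP CONTRACT `ent_space`: `Asm.RawEntryOK RK κe ε sd (Asm.concSys K 𝓡 hA j0 op D sd rd)` from `EntIn` (+ `Cfg.OpsOK`, + the side relation);
`entIn_mk`: `EntIn` from the last line of `F4b.initialization` (`BulkOK`, `CopyOK.bulk` in all admissible volumes) and the facts of TOWER (`gs h` = cells of side `sd`, `IsObs` at the entry level).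
Also exported: the dictionaries `ent_space_torus`, `ent_space_plane` (activity of the entry point = entry activity in the strips) and `ent_space_copy` (hypothesis of `Sys8.copy` at the entry index).

## Layout (prefix `esp_`)
* s.A  activities: monotonicity of `Act.Ok` in `(col, R)`; `cutW` preserves the class `Act.Cls` (`Pack.sym_unwr` of `Map/Sym.lean`), decreases the norm;
       Schwarz reflection (`esp_conj_of_real`: real on real fields + holomorphic in the strip ⟹ fixed by `conjAct`); `CopyAt` ⟹ `Copy` of the cut activities.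
* s.B  spaces, for ARBITRARY families `F : ι → Lvl` (so the kit does not depend on the index set of the plane family): extensionality, existence (`esp_bulk_mk`), holomorphy in a parameter.
* s.C  the dictionary for `Cfg.toMk`, `Cfg.plMk`.
* s.D  the hypotheses `EntIn`, the exports.      * s.E  `entIn_mk`.
-/

set_option autoImplicit false

namespace Claimed.Agent.R285.EntSp

open scoped BigOperators ENNReal NNReal
open Claimed.Agent.R285 Claimed.Agent.R285.RG Claimed.Agent.R285.B4 Claimed.Agent.R285.B8 Claimed.Agent.R285.F4a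
  Claimed.Agent.R285.F4b

noncomputable section

variable {G : Geom}

/-! ## A. Activities -/

theorem esp_conn_mono {g : Grid G} {R R' : ℕ} (h : R ≤ R') {X : Finset g.I} (hX : g.Conn R X) : g.Conn R' X :=
  ⟨hX.1, fun a ha b hb => Relation.ReflTransGen.mono (fun _ _ huv => ⟨huv.1, huv.2.1, huv.2.2.trans h⟩) a b (hX.2 a ha b hb)⟩

theorem esp_ok_mono {p : Par} {col col' R R' : ℕ} (hc : col ≤ col') (hR : R ≤ R') {g : Grid G} {K : Act g}
    (h : K.Ok p col R) : K.Ok p col' R' where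
  fn := fun X => ⟨(h.fn X).hol, fun z hz z' hz' e => (h.fn X).loc z hz z' hz' fun v ⟨w, hw, hd⟩ => e v ⟨w, hw, hd.trans hc⟩,
    (h.fn X).per⟩
  poly := fun X hX => h.poly X fun hc' => hX (esp_conn_mono hR hc')

theorem esp_cutW_pos {g : Grid G} {c0 : ℕ} (K : Act g) {X : Finset g.I} (hX : g.Unwr c0 X) : cutW c0 K X = K X := by
  unfold cutW; rw [if_pos hX]

theorem esp_cutW_neg {g : Grid G} {c0 : ℕ} (K : Act g) {X : Finset g.I} (hX : ¬ g.Unwr c0 X) : cutW c0 K X = 0 := by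
  unfold cutW; rw [if_neg hX]

theorem esp_cutW_ok {p : Par} {col R : ℕ} {g : Grid G} {K : Act g} (c0 : ℕ) (h : K.Ok p col R) :
    (cutW c0 K).Ok p col R where
  fn := fun X => by
    by_cases hX : g.Unwr c0 X
    · rw [esp_cutW_pos K hX]; exact h.fn X
    · rw [esp_cutW_neg K hX]; exact LocalFn.sp_zero p col g X
  poly := fun X hc => by
    by_cases hX : g.Unwr c0 X
    · rw [esp_cutW_pos K hX]; exact h.poly X hc
    · exact esp_cutW_neg K hX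

theorem esp_cutW_even {h0 : ℝ≥0} {g : Grid G} {K : Act g} (c0 : ℕ) (h : K.Even h0) : (cutW c0 K).Even h0 := fun X z hz => by
  by_cases hX : g.Unwr c0 X
  · rw [esp_cutW_pos K hX]; exact h X z hz
  · rw [esp_cutW_neg K hX]; rfl

theorem esp_cutW_sym (hG : G.bc = BC.per) (hM : 3 ≤ G.M) {h0 : ℝ≥0} {g gs : Grid G} {K : Act g} (c0 : ℕ) (h : K.Sym h0 gs) :
    (cutW c0 K).Sym h0 gs := fun s hs X z hz hz' => by
  by_cases hX : g.Unwr c0 X
  · rw [esp_cutW_pos K hX, esp_cutW_pos K ((Pack.sym_unwr hG hM s c0 X).2 hX)]; exact h s hs X z hz hz'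
  · rw [esp_cutW_neg K hX, esp_cutW_neg K fun h' => hX ((Pack.sym_unwr hG hM s c0 X).1 h')]; rfl

theorem esp_cutW_cls (hG : G.bc = BC.per) (hM : 3 ≤ G.M) {p : Par} {col R : ℕ} {g gs : Grid G} {K : Act g} (c0 : ℕ)
    (h : K.Cls p col R gs) : (cutW c0 K).Cls p col R gs :=
  ⟨esp_cutW_ok c0 h.ok, esp_cutW_even c0 h.even, esp_cutW_sym hG hM c0 h.sym⟩

theorem esp_fnSize_zero (p : Par) (g : Grid G) (V : Extra g) (X : Finset g.I) : fnSize p g V X 0 = 0 := by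
  simp [fnSize, ptNorm]

theorem esp_actNorm_cutW_le (p : Par) (g : Grid G) (V : Extra g) (c0 : ℕ) (K : Act g) :
    actNorm p g V (cutW c0 K) ≤ actNorm p g V K := by
  unfold actNorm
  refine iSup_mono fun X => ?_
  by_cases hX : g.Unwr c0 X
  · rw [esp_cutW_pos K hX]
  · rw [esp_cutW_neg K hX, esp_fnSize_zero]; simp

theorem esp_cutW_eqOn {h0 : ℝ≥0} {g : Grid G} {K K' : Act g} (c0 : ℕ) (h : EqOn h0 K K') :
    EqOn h0 (cutW c0 K) (cutW c0 K') := fun X z hz => by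
  by_cases hX : g.Unwr c0 X
  · rw [esp_cutW_pos K hX, esp_cutW_pos K' hX]; exact h X z hz
  · rw [esp_cutW_neg K hX, esp_cutW_neg K' hX]

theorem esp_conj_mem_strip {h0 : ℝ≥0} {g : Grid G} {X : Finset g.I} {z : G.V → ℂ} (hz : z ∈ strip h0 g X) :
    (fun v => starRingEnd ℂ (z v)) ∈ strip h0 g X := by
  have h1 : tnorm g X (fun v => (starRingEnd ℂ (z v)).im) = tnorm g X (fun v => (z v).im) := by
    simp only [Complex.conj_im]
    exact sp_tnorm_neg g X _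
  show tnorm g X (fun v => (starRingEnd ℂ (z v)).im) < h0
  rw [h1]; exact hz

/-- **Schwarz reflection**: restrict to the complex line `γ t = Re z + t Im z` (`γ I = z`), which stays in the strip for `|Im t| ≤ 1`; identity theorem on the band. -/
theorem esp_conj_of_real {h0 : ℝ≥0} {g : Grid G} {X : Finset g.I} {F : Fn G} (hol : Hol h0 g X F)
    (hre : ∀ φ : G.V → ℝ, (F (toC φ)).im = 0) :
    ∀ z ∈ strip h0 g X, starRingEnd ℂ (F fun v => starRingEnd ℂ (z v)) = F z := by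
  intro z hz
  set γ : ℂ → (G.V → ℂ) := fun t v => ((z v).re : ℂ) + t * ((z v).im : ℂ) with hγ
  have hγI : γ Complex.I = z := by
    funext v
    simp only [hγ]
    rw [mul_comm]; exact Complex.re_add_im _
  have hγc : ∀ t, γ (starRingEnd ℂ t) = fun v => starRingEnd ℂ (γ t v) := by
    intro t; funext v; simp [hγ]
  have hγd : Differentiable ℂ γ := by
    rw [differentiable_pi]; intro v
    exact (differentiable_const _).add (differentiable_id.mul_const _)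
  have hmem : ∀ t : ℂ, |t.im| ≤ 1 → γ t ∈ strip h0 g X := by
    intro t ht
    show tnorm g X (fun v => (γ t v).im) < h0
    have e : (fun v => (γ t v).im) = fun v => (AddMonoidHom.mulLeft t.im) ((z v).im) := by
      funext v; simp [hγ]
    rw [e]
    refine (sp_tnorm_map_le (AddMonoidHom.mulLeft t.im) (fun a => ?_) g X _).trans_lt hz
    rw [← NNReal.coe_le_coe]
    simp only [AddMonoidHom.coe_mulLeft, coe_nnnorm, norm_mul, Real.norm_eq_abs]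
    exact mul_le_of_le_one_left (abs_nonneg _) ht
  set S : Set ℂ := γ ⁻¹' strip h0 g X with hSdef
  have hS : IsOpen S := (sp_isOpen_strip h0 g X).preimage hγd.continuous
  set f1 : ℂ → ℂ := fun t => F (γ t) with hf1def
  have hf1 : ∀ t ∈ S, DifferentiableAt ℂ f1 t := fun t ht =>
    (hol.differentiableAt ((sp_isOpen_strip h0 g X).mem_nhds ht)).comp t (hγd t)
  have hSc : ∀ t ∈ S, starRingEnd ℂ t ∈ S := fun t ht => by
    show γ (starRingEnd ℂ t) ∈ strip h0 g X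
    rw [hγc]; exact esp_conj_mem_strip ht
  set f : ℂ → ℂ := fun t => f1 t - (starRingEnd ℂ ∘ f1 ∘ starRingEnd ℂ) t with hfdef
  have hf : DifferentiableOn ℂ f S := fun t ht =>
    ((hf1 t ht).sub (differentiableAt_conj_conj_iff.2 (hf1 _ (hSc t ht)))).differentiableWithinAt
  have han : AnalyticOnNhd ℂ f S := hf.analyticOnNhd hS
  set U : Set ℂ := Complex.imLm ⁻¹' Set.Icc (-1 : ℝ) 1 with hUdef
  have hUS : U ⊆ S := fun t ht => hmem t (abs_le.2 ht)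
  have hUc : Convex ℝ U := (convex_Icc (-1 : ℝ) 1).linear_preimage Complex.imLm
  have h0U : (0 : ℂ) ∈ U := by simp [hUdef]
  have hreal : ∀ x : ℝ, f (x : ℂ) = 0 := by
    intro x
    have e : γ (x : ℂ) = toC fun v => (z v).re + x * (z v).im := by
      funext v; simp [hγ, toC]
    simp only [hfdef, hf1def, Function.comp, Complex.conj_ofReal, e]
    rw [Complex.conj_eq_iff_im.2 (hre _), sub_self]
  have hfreq : ∃ᶠ t in nhdsWithin (0 : ℂ) {0}ᶜ, f t = 0 := by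
    have ht : Filter.Tendsto (fun x : ℝ => (x : ℂ)) (nhdsWithin 0 {0}ᶜ) (nhdsWithin 0 {0}ᶜ) := by
      refine tendsto_nhdsWithin_of_tendsto_nhds_of_eventually_within _ ?_ ?_
      · exact (Complex.continuous_ofReal.tendsto' 0 0 (by simp)).mono_left nhdsWithin_le_nhds
      · filter_upwards [self_mem_nhdsWithin] with x hx
        simpa using hx
    exact ht.frequently (Filter.Eventually.frequently (Filter.Eventually.of_forall hreal))
  have key := (han.mono hUS).eqOn_zero_of_preconnected_of_frequently_eq_zero hUc.isPreconnected h0U hfreq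
  have hI : Complex.I ∈ U := by simp [hUdef]
  have h := key hI
  simp only [hfdef, hf1def, Function.comp, Pi.zero_apply, hγc, hγI] at h
  exact (sub_eq_zero.1 h).symm


theorem esp_conjAct_of_real {p : Par} {col R : ℕ} {g : Grid G} {K : Act g} (hK : K.Ok p col R) (hre : K.Real) :
    EqOn p.h0 (conjAct K) K := fun X z hz => esp_conj_of_real (hK.fn X).hol (hre X) z hz

theorem esp_cutW_real {g : Grid G} {K : Act g} (c0 : ℕ) (h : K.Real) : (cutW c0 K).Real := fun X φ => by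
  by_cases hX : g.Unwr c0 X
  · rw [esp_cutW_pos K hX]; exact h X φ
  · rw [esp_cutW_neg K hX]; rfl

/-- more padding is a weaker statement -/
theorem esp_copyAt_mono {h0 : ℝ≥0} {r r' : ℕ} (hr : r ≤ r') {G G' : Geom} {g : Grid G} {g' : Grid G'} {o o' : ℤ × ℤ}
    {K : Act g} {K' : Act g'} (h : CopyAt h0 r g g' o o' K K') : CopyAt h0 r' g g' o o' K K' := by
  intro S h1 h2 z hz z' hz' e
  refine h S ⟨fun hb => ?_, fun hb x hx => ?_⟩ ⟨fun hb => ?_, fun hb x hx => ?_⟩ z hz z' hz' fun x ⟨y, hy, hxy⟩ =>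
    e x ⟨y, hy, hxy.trans hr⟩
  · have := h1.1 hb; omega
  · have := h1.2 hb x hx; omega
  · have := h2.1 hb; omega
  · have := h2.2 hb x hx; omega

/-- `CopyAt` with the charts at the origin, on two tori, gives `Copy` of the cut activities -/
theorem esp_copy_of_copyAt {h0 : ℝ≥0} {c0 : ℕ} {G G' : Geom} (hG : G.bc = BC.per) (hG' : G'.bc = BC.per) {g : Grid G}
    {g' : Grid G'} (hm : g'.m = g.m) {K : Act g} {K' : Act g'} (h : CopyAt h0 (c0 * g.m) g g' 0 0 K K') :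
    Copy h0 c0 g g' (cutW c0 K) (cutW c0 K') := by
  intro S h1 h2 z hz z' hz' e
  have hU : g.Unwr c0 (g.foldS S) := ⟨S, rfl, h1⟩
  have hU' : g'.Unwr c0 (g'.foldS S) := ⟨S, rfl, by rw [hm]; exact h2⟩
  rw [esp_cutW_pos K hU, esp_cutW_pos K' hU']
  have := h S ⟨fun _ => by rw [← mul_assoc]; exact h1, fun hb => by rw [hG] at hb; cases hb⟩
    ⟨fun _ => by rw [← mul_assoc]; exact h2, fun hb => by rw [hG'] at hb; cases hb⟩
  simp only [add_zero, Finset.image_id'] at this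
  exact this z hz z' hz' e


theorem esp_conjAct_eqOn {h0 : ℝ≥0} {g : Grid G} {K K' : Act g} (h : EqOn h0 K K') : EqOn h0 (conjAct K) (conjAct K') :=
  fun X z hz => by
    unfold conjAct
    rw [h X _ (esp_conj_mem_strip hz)]

theorem esp_eqOn_symm {h0 : ℝ≥0} {g : Grid G} {K K' : Act g} (h : EqOn h0 K K') : EqOn h0 K' K :=
  fun X z hz => (h X z hz).symm

theorem esp_eqOn_trans {h0 : ℝ≥0} {g : Grid G} {K K' K'' : Act g} (h : EqOn h0 K K') (h' : EqOn h0 K' K'') : EqOn h0 K K'' :=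
  fun X z hz => (h X z hz).trans (h' X z hz)

/-! ## B. Spaces (arbitrary families) -/

/-- two points of `ActSp` with the same activity in the strips are equal -/
theorem esp_actSp_ext (p : Par) (hA : 0 < p.A) (col R : ℕ) (g gs : Grid G) (V : Extra g) (a b : ActSp p col R g gs V)
    (h : EqOn p.h0 (Amb.act p g V a.1) (Amb.act p g V b.1)) : a = b := by
  apply Subtype.ext
  apply lp.ext
  funext i
  rw [(actSp_act p hA col R g gs V a).2.1 i, (actSp_act p hA col R g gs V b).2.1 i]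
  exact sp_ev_congr p g V _ _ h i

/-- the component `i` of a point of the ambient space of a family -/
def esPull {ι : Type} (F : ι → Lvl) (i : ι) : Amb (FIdx F) →L[ℂ] Amb (Idx (F i).g) := spPull fun x => (⟨i, x⟩ : FIdx F)

/-- the activity of the component `i` -/
def esAct (p : Par) {ι : Type} (F : ι → Lvl) (a : Amb (FIdx F)) (i : ι) : Act (F i).g :=
  Amb.act p (F i).g (F i).V (esPull F i a)

theorem esp_bulk_ev (p : Par) (hA : 0 < p.A) (col R c0 : ℕ) {ι : Type} (F : ι → Lvl) (a : BulkSp p col R c0 F) (i : ι)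
    (x : Idx (F i).g) : a.1 ⟨i, x⟩ = ev p (F i).g (F i).V (esAct p F a.1 i) x := by
  obtain ⟨Kf, -, -, -, hev⟩ := a.2
  exact sp_ev_act p hA (F i).g (F i).V (esPull F i a.1) (Kf i) (fun x => hev i x) x

/-- two points of `BulkSp` with the same activities in the strips are equal -/
theorem esp_bulk_ext (p : Par) (hA : 0 < p.A) (col R c0 : ℕ) {ι : Type} (F : ι → Lvl) (a b : BulkSp p col R c0 F)
    (h : ∀ i, EqOn p.h0 (esAct p F a.1 i) (esAct p F b.1 i)) : a = b := by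
  apply Subtype.ext
  apply lp.ext
  funext ⟨i, x⟩
  rw [esp_bulk_ev p hA col R c0 F a i x, esp_bulk_ev p hA col R c0 F b i x]
  exact sp_ev_congr p _ _ _ _ (h i) x

theorem esp_bulk_act_of_ev (p : Par) (hA : 0 < p.A) {ι : Type} (F : ι → Lvl) (a : Amb (FIdx F)) (i : ι) (Ki : Act (F i).g)
    (h : ∀ x, a ⟨i, x⟩ = ev p (F i).g (F i).V Ki x) : EqOn p.h0 (esAct p F a i) Ki :=
  fun X z hz => sp_act_of_ev p hA (F i).g (F i).V (esPull F i a) Ki h X z hz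

/-- **existence**: a copy-consistent family of unwrapped activities of the class, with uniformly bounded norms, is a point of `BulkSp` -/
theorem esp_bulk_mk (p : Par) (hA : 0 < p.A) (col R c0 : ℕ) {ι : Type} (F : ι → Lvl) (Kf : ∀ i, Act (F i).g)
    (hCls : ∀ i, (Kf i).Cls p col R (F i).gs) (hU : ∀ i X, ¬ (F i).g.Unwr c0 X → Kf i X = 0)
    (hC : ∀ i i', Copy p.h0 c0 (F i).g (F i').g (Kf i) (Kf i')) {ε : ℝ} (hε : 0 ≤ ε)
    (hbd : ∀ i, actNorm p (F i).g (F i).V (Kf i) ≤ ENNReal.ofReal ε) :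
    ∃ a : BulkSp p col R c0 F, (∀ i x, a.1 ⟨i, x⟩ = ev p (F i).g (F i).V (Kf i) x) ∧ ‖a‖ ≤ ε := by
  have hle : ∀ y : FIdx F, ‖ev p (F y.1).g (F y.1).V (Kf y.1) y.2‖ ≤ ε := fun y => by
    have hfin : actNorm p (F y.1).g (F y.1).V (Kf y.1) ≠ ⊤ := ne_top_of_le_ne_top ENNReal.ofReal_ne_top (hbd y.1)
    exact (sp_ev_le p hA _ _ _ hfin y.2).trans (ENNReal.toReal_le_of_le_ofReal hε (hbd y.1))
  have hmem : Memℓp (fun y : FIdx F => ev p (F y.1).g (F y.1).V (Kf y.1) y.2) ∞ :=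
    memℓp_infty ⟨ε, by rintro _ ⟨y, rfl⟩; exact hle y⟩
  refine ⟨⟨⟨_, hmem⟩, ⟨Kf, hCls, hU, hC, fun i x => rfl⟩⟩, fun i x => rfl, ?_⟩
  exact lp.norm_le_of_forall_le hε hle

theorem esp_ev_differentiableOn (p : Par) (g : Grid G) (V : Extra g) (U : Set ℂ) (Kb : ℂ → Act g)
    (hhol : ∀ X, ∀ z ∈ strip p.h0 g X, DifferentiableOn ℂ (fun b => Kb b X z) U) (i : Idx g) :
    DifferentiableOn ℂ (fun b => ev p g V (Kb b) i) U := by
  obtain ⟨X, φ, f⟩ := i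
  by_cases hf : tnorm g X f < p.h0
  · simp only [sp_ev_pos p g V _ X φ f hf]
    exact (hhol X _ (sp_mem_strip_add hf φ)).const_mul _
  · simp only [sp_ev_neg p g V _ X φ f hf]
    exact differentiableOn_const _

/-- bounded + coordinatewise holomorphic ⟹ holomorphic into a closed subspace of `ℓ^∞` -/
theorem esp_sub_differentiableOn {ι : Type} (S : Submodule ℂ (Amb ι)) (hS : IsClosed (S : Set (Amb ι))) (U : Set ℂ)
    (hU : IsOpen U) (Φ : ℂ → S) (hc : ∀ i, DifferentiableOn ℂ (fun b => (Φ b).1 i) U) (M : ℝ)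
    (hM : ∀ b ∈ U, ‖Φ b‖ ≤ M) : DifferentiableOn ℂ Φ U := by
  refine differentiableOn_codRestrict S hS U hU Φ (lp_differentiableOn U hU (fun b => (Φ b).1) hc fun x hx => ?_)
  obtain ⟨ε, hε, hball⟩ := Metric.isOpen_iff.1 hU x hx
  exact ⟨ε, hε, M, fun y hy => hM y (hball hy)⟩

/-! ## C. The dictionary for `Cfg.toMk`, `Cfg.plMk` -/

section cfg

variable (K : Cfg) (𝓡 : Reg K.s)

theorem esp_plAct_eq {j : ℕ} (a : K.Pl 𝓡 j) (i : 𝓡.Ix j) : K.plAct 𝓡 a i = esAct K.p (K.fam 𝓡 j) a.1 i := rfl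

theorem esp_toMk_spec (hA : 0 < K.p.A) (j h : ℕ) (R : Act (K.s.lev h j)) (hR : R.Cls K.p K.c.col K.c.R (𝓡.gs h))
    (hfin : actNorm K.p (K.s.lev h j) (𝓡.V h j) R ≠ ⊤) :
    EqOn K.p.h0 (K.toAct 𝓡 (K.toMk 𝓡 j h R)) R ∧ (∀ i, (K.toMk 𝓡 j h R).1 i = ev K.p (K.s.lev h j) (𝓡.V h j) R i) ∧
      ‖K.toMk 𝓡 j h R‖ = (actNorm K.p (K.s.lev h j) (𝓡.V h j) R).toReal := by
  obtain ⟨a, ha1, ha2, ha3⟩ := actSp_mk K.p hA K.c.col K.c.R (K.s.lev h j) (𝓡.gs h) (𝓡.V h j) R hR hfin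
  have hx : ∃ b : K.To 𝓡 j h, EqOn K.p.h0 (K.toAct 𝓡 b) R := ⟨a, ha3⟩
  have he : K.toMk 𝓡 j h R = a := by
    unfold Cfg.toMk
    rw [dif_pos hx]
    exact esp_actSp_ext K.p hA _ _ _ _ _ _ _ (esp_eqOn_trans hx.choose_spec (esp_eqOn_symm ha3))
  rw [he]
  exact ⟨ha3, ha1, ha2⟩

theorem esp_plMk_spec (hA : 0 < K.p.A) (j : ℕ) (R : ∀ i : 𝓡.Ix j, Act (K.s.lev i.1 j))
    (hCls : ∀ i, (R i).Cls K.p K.c.col K.c.R (𝓡.gs i.1)) (hU : ∀ i X, ¬ (K.s.lev i.1 j).Unwr K.c0 X → R i X = 0)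
    (hC : ∀ i i', Copy K.p.h0 K.c0 (K.s.lev i.1 j) (K.s.lev i'.1 j) (R i) (R i')) {ε : ℝ} (hε : 0 ≤ ε)
    (hbd : ∀ i, actNorm K.p (K.s.lev i.1 j) (𝓡.V i.1 j) (R i) ≤ ENNReal.ofReal ε) :
    (∀ i, EqOn K.p.h0 (K.plAct 𝓡 (K.plMk 𝓡 j R) i) (R i)) ∧
      (∀ i x, (K.plMk 𝓡 j R).1 ⟨i, x⟩ = ev K.p (K.s.lev i.1 j) (𝓡.V i.1 j) (R i) x) ∧ ‖K.plMk 𝓡 j R‖ ≤ ε := by
  obtain ⟨a, ha1, ha2⟩ := esp_bulk_mk K.p hA K.c.col K.c.R K.c0 (K.fam 𝓡 j) R hCls hU hC hε hbd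
  have ha3 : ∀ i, EqOn K.p.h0 (K.plAct 𝓡 a i) (R i) := fun i =>
    esp_bulk_act_of_ev K.p hA (K.fam 𝓡 j) a.1 i (R i) (ha1 i)
  have hx : ∃ b : K.Pl 𝓡 j, ∀ i, EqOn K.p.h0 (K.plAct 𝓡 b i) (R i) := ⟨a, ha3⟩
  have he : K.plMk 𝓡 j R = a := by
    unfold Cfg.plMk
    rw [dif_pos hx]
    exact esp_bulk_ext K.p hA _ _ _ _ _ _ fun i => esp_eqOn_trans (hx.choose_spec i) (esp_eqOn_symm (ha3 i))
  rw [he]
  exact ⟨ha3, ha1, ha2⟩

end cfg

/-! ## D. The entries -/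

/-- **what ENTRY (`F4b.initialization` at fixed `R`, `s`) and TOWER give at P14** on the retained tori `h ≥ max j0 hmin`; `b0`, `r`: centre and radius of the parameter disk -/
structure EntIn (K : Cfg) (𝓡 : Reg K.s) (D : EntryData) (b0 a : ℝ) (o : ObsPar) (r ε : ℝ) (sd j0 c0' big : ℕ) : Prop where
  hA : 0 < K.p.A
  hR : RR ≤ K.c.R
  hε : 0 ≤ ε
  hc0 : c0' ≤ K.c0
  hsd : sd ∣ K.s.L ^ j0
  /-- for `Pack.sym_unwr` -/
  hM : ∀ h, j0 < h → 3 ≤ (K.s.T h).M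
  cells : ∀ h, j0 ≤ h → 𝓡.hmin ≤ h → ∀ hd, 𝓡.gs h = (Asm.vol K.s sd h j0 hd).c
  obs : ∀ h, j0 ≤ h → 𝓡.hmin ≤ h → IsObs o (𝓡.gs h) (K.s.lev h j0) (𝓡.V h j0)
  bulk : ∀ h, j0 ≤ h → 𝓡.hmin ≤ h → ∀ hd, BulkOK D b0 a K.p o r ε (Asm.vol K.s sd h j0 hd)
  copy : ∀ h h', j0 ≤ h → 𝓡.hmin ≤ h → j0 ≤ h' → 𝓡.hmin ≤ h' → ∀ hd hd',
    CopyOK D b0 K.p.h0 c0' r big (Asm.vol K.s sd h j0 hd) (Asm.vol K.s sd h' j0 hd')

section ent

variable {K : Cfg} {𝓡 : Reg K.s} {D : EntryData} {b0 a : ℝ} {o : ObsPar} {r ε : ℝ} {sd j0 c0' big : ℕ}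

theorem EntIn.dvd (H : EntIn K 𝓡 D b0 a o r ε sd j0 c0' big) {h : ℕ} (hj : j0 ≤ h) : sd ∣ K.s.L ^ (min j0 h) := by
  rw [min_eq_left hj]; exact H.hsd

theorem EntIn.act_eq (H : EntIn K 𝓡 D b0 a o r ε sd j0 c0' big) {h : ℕ} (hj : j0 ≤ h) (b : ℂ) :
    Asm.entAct K.s D sd h j0 b = D.K0 (Asm.vol K.s sd h j0 (H.dvd hj)) b := dif_pos (H.dvd hj)

theorem EntIn.cls (H : EntIn K 𝓡 D b0 a o r ε sd j0 c0' big) {h : ℕ} (hj : j0 ≤ h) (hh : 𝓡.hmin ≤ h) {b : ℂ}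
    (hb : b ∈ Metric.ball (b0 : ℂ) r) : (Asm.entAct K.s D sd h j0 b).Cls K.p K.c.col K.c.R (𝓡.gs h) := by
  rw [H.act_eq hj]
  exact ⟨esp_ok_mono (Nat.zero_le _) H.hR ((H.bulk h hj hh _).ok b hb), (H.bulk h hj hh _).even b hb, by
    rw [H.cells h hj hh (H.dvd hj)]; exact (H.bulk h hj hh _).sym rfl b hb⟩

theorem EntIn.norm_le (H : EntIn K 𝓡 D b0 a o r ε sd j0 c0' big) {h : ℕ} (hj : j0 ≤ h) (hh : 𝓡.hmin ≤ h) {b : ℂ}
    (hb : b ∈ Metric.ball (b0 : ℂ) r) :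
    actNorm K.p (K.s.lev h j0) (𝓡.V h j0) (Asm.entAct K.s D sd h j0 b) ≤ ENNReal.ofReal ε := by
  rw [H.act_eq hj]
  refine (H.bulk h hj hh _).norm b hb (𝓡.V h j0) ?_
  rw [← H.cells h hj hh (H.dvd hj)]; exact H.obs h hj hh

theorem EntIn.hol (H : EntIn K 𝓡 D b0 a o r ε sd j0 c0' big) {h : ℕ} (hj : j0 ≤ h) (hh : 𝓡.hmin ≤ h) (X : Finset (K.s.lev h j0).I)
    (z : (K.s.T h).V → ℂ) (hz : z ∈ strip K.p.h0 (K.s.lev h j0) X) :
    DifferentiableOn ℂ (fun b => Asm.entAct K.s D sd h j0 b X z) (Metric.ball (b0 : ℂ) r) := by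
  simp only [H.act_eq hj]
  exact (H.bulk h hj hh _).hol X z hz

theorem EntIn.real (H : EntIn K 𝓡 D b0 a o r ε sd j0 c0' big) {h : ℕ} (hj : j0 ≤ h) (hh : 𝓡.hmin ≤ h) {b : ℝ}
    (hb : |b - b0| < r) : (Asm.entAct K.s D sd h j0 b).Real := by
  rw [H.act_eq hj]
  exact (H.bulk h hj hh _).real b hb

theorem EntIn.copy_cut (H : EntIn K 𝓡 D b0 a o r ε sd j0 c0' big) {h h' : ℕ} (hj : j0 ≤ h) (hh : 𝓡.hmin ≤ h) (hj' : j0 ≤ h')
    (hh' : 𝓡.hmin ≤ h') {b : ℂ} (hb : b ∈ Metric.ball (b0 : ℂ) r) :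
    Copy K.p.h0 K.c0 (K.s.lev h j0) (K.s.lev h' j0) (cutW K.c0 (Asm.entAct K.s D sd h j0 b))
      (cutW K.c0 (Asm.entAct K.s D sd h' j0 b)) := by
  rw [H.act_eq hj, H.act_eq hj']
  have h1 := (H.copy h h' hj hh hj' hh' (H.dvd hj) (H.dvd hj')).bulk b hb 0 0 (dvd_zero _) (dvd_zero _) (dvd_zero _) (dvd_zero _)
  have h2 := esp_copyAt_mono (Nat.mul_le_mul_right (Asm.vol K.s sd h j0 (H.dvd hj)).m H.hc0) h1
  refine esp_copy_of_copyAt rfl rfl ?_ h2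
  show K.s.L ^ min j0 h' = K.s.L ^ min j0 h
  rw [min_eq_left hj, min_eq_left hj']

/-- **EXPORT 1: the torus entries** (holomorphy, bound, dictionary) -/
theorem ent_space_torus (H : EntIn K 𝓡 D b0 a o r ε sd j0 c0' big) {h : ℕ} (hj : j0 ≤ h) (hh : 𝓡.hmin ≤ h) :
    DifferentiableOn ℂ (fun b => K.toMk 𝓡 j0 h (Asm.entAct K.s D sd h j0 b)) (Metric.ball (b0 : ℂ) r) ∧
    (∀ b ∈ Metric.ball (b0 : ℂ) r, ‖K.toMk 𝓡 j0 h (Asm.entAct K.s D sd h j0 b)‖ ≤ ε) ∧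
    ∀ b ∈ Metric.ball (b0 : ℂ) r,
      EqOn K.p.h0 (K.toAct 𝓡 (K.toMk 𝓡 j0 h (Asm.entAct K.s D sd h j0 b))) (Asm.entAct K.s D sd h j0 b) := by
  have hfin : ∀ b ∈ Metric.ball (b0 : ℂ) r, actNorm K.p (K.s.lev h j0) (𝓡.V h j0) (Asm.entAct K.s D sd h j0 b) ≠ ⊤ :=
    fun b hb => ne_top_of_le_ne_top ENNReal.ofReal_ne_top (H.norm_le hj hh hb)
  have hsp := fun b hb => esp_toMk_spec K 𝓡 H.hA j0 h (Asm.entAct K.s D sd h j0 b) (H.cls hj hh hb) (hfin b hb)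
  have hbd : ∀ b ∈ Metric.ball (b0 : ℂ) r, ‖K.toMk 𝓡 j0 h (Asm.entAct K.s D sd h j0 b)‖ ≤ ε := fun b hb => by
    rw [(hsp b hb).2.2]
    exact ENNReal.toReal_le_of_le_ofReal H.hε (H.norm_le hj hh hb)
  refine ⟨?_, hbd, fun b hb => (hsp b hb).1⟩
  refine esp_sub_differentiableOn _ (actSp_isClosed K.p H.hA _ _ _ _ _) _ Metric.isOpen_ball _ (fun i => ?_) ε hbd
  refine (esp_ev_differentiableOn K.p (K.s.lev h j0) (𝓡.V h j0) _ (Asm.entAct K.s D sd h j0) (H.hol hj hh) i).congr ?_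
  intro b hb
  exact (hsp b hb).2.1 i

/-- **EXPORT 2: the plane entry** (holomorphy, bound, reality, dictionary) -/
theorem ent_space_plane (H : EntIn K 𝓡 D b0 a o r ε sd j0 c0' big) (op : K.Ops 𝓡) (hop : K.OpsOK 𝓡 j0 op) :
    DifferentiableOn ℂ (fun b => K.plMk 𝓡 j0 fun i => cutW K.c0 (Asm.entAct K.s D sd i.1 j0 b)) (Metric.ball (b0 : ℂ) r) ∧
    (∀ b ∈ Metric.ball (b0 : ℂ) r, ‖K.plMk 𝓡 j0 fun i => cutW K.c0 (Asm.entAct K.s D sd i.1 j0 b)‖ ≤ ε) ∧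
    (∀ b : ℝ, (b : ℂ) ∈ Metric.ball (b0 : ℂ) r →
      op.cj j0 (K.plMk 𝓡 j0 fun i => cutW K.c0 (Asm.entAct K.s D sd i.1 j0 b)) =
        K.plMk 𝓡 j0 fun i => cutW K.c0 (Asm.entAct K.s D sd i.1 j0 b)) ∧
    ∀ b ∈ Metric.ball (b0 : ℂ) r, ∀ i, EqOn K.p.h0 (K.plAct 𝓡 (K.plMk 𝓡 j0 fun i => cutW K.c0 (Asm.entAct K.s D sd i.1 j0 b)) i)
      (cutW K.c0 (Asm.entAct K.s D sd i.1 j0 b)) := by
  have hj : ∀ i : 𝓡.Ix j0, j0 ≤ i.1 := fun i => i.2.1.le
  have hi : ∀ i : 𝓡.Ix j0, 𝓡.hmin ≤ i.1 := fun i => i.2.2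
  have hsp := fun b (hb : b ∈ Metric.ball (b0 : ℂ) r) => esp_plMk_spec K 𝓡 H.hA j0
    (fun i => cutW K.c0 (Asm.entAct K.s D sd i.1 j0 b)) (fun i => esp_cutW_cls rfl (H.hM i.1 i.2.1) K.c0 (H.cls (hj i) (hi i) hb))
    (fun i X hX => esp_cutW_neg _ hX) (fun i i' => H.copy_cut (hj i) (hi i) (hj i') (hi i') hb) H.hε
    (fun i => (esp_actNorm_cutW_le _ _ _ _ _).trans (H.norm_le (hj i) (hi i) hb))
  refine ⟨?_, fun b hb => (hsp b hb).2.2, fun b hb => ?_, fun b hb => (hsp b hb).1⟩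
  · refine esp_sub_differentiableOn _ (bulkSp_isClosed K.p H.hA _ _ _ _) _ Metric.isOpen_ball _ (fun y => ?_) ε
      fun b hb => (hsp b hb).2.2
    obtain ⟨i, x⟩ := y
    refine (esp_ev_differentiableOn K.p (K.s.lev i.1 j0) (𝓡.V i.1 j0) _ (fun b => cutW K.c0 (Asm.entAct K.s D sd i.1 j0 b))
      (fun X z hz => ?_) x).congr ?_
    · by_cases hX : (K.s.lev i.1 j0).Unwr K.c0 X
      · simp only [esp_cutW_pos _ hX]
        exact H.hol (hj i) (hi i) X z hz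
      · simp only [esp_cutW_neg _ hX]
        exact differentiableOn_const _
    · intro b hb
      exact (hsp b hb).2.1 i x
  · refine esp_bulk_ext K.p H.hA _ _ _ _ _ _ fun i => ?_
    have hre : |b - b0| < r := by
      rw [Metric.mem_ball, Complex.dist_eq, ← Complex.ofReal_sub, Complex.norm_real] at hb
      exact hb
    have h1 := hop.cj j0 (K.plMk 𝓡 j0 fun i => cutW K.c0 (Asm.entAct K.s D sd i.1 j0 b)) i
    have h2 := esp_conjAct_eqOn ((hsp b hb).1 i)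
    have h3 : EqOn K.p.h0 (conjAct (cutW K.c0 (Asm.entAct K.s D sd i.1 j0 b))) (cutW K.c0 (Asm.entAct K.s D sd i.1 j0 b)) :=
      esp_conjAct_of_real (esp_cutW_ok K.c0 (H.cls (hj i) (hi i) hb).ok) (esp_cutW_real K.c0 (H.real (hj i) (hi i) hre))
    exact esp_eqOn_trans h1 (esp_eqOn_trans h2 (esp_eqOn_trans h3 (esp_eqOn_symm ((hsp b hb).1 i))))

/-- **EXPORT 3**: the torus entry is a copy of the plane entry (hypothesis of `Sys8.copy` at the entry index) -/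
theorem ent_space_copy (H : EntIn K 𝓡 D b0 a o r ε sd j0 c0' big) (op : K.Ops 𝓡) (hop : K.OpsOK 𝓡 j0 op) {h : ℕ} (hj : j0 < h)
    (hm : 𝓡.hmin ≤ h) {b : ℂ} (hb : b ∈ Metric.ball (b0 : ℂ) r) :
    EqOn K.p.h0 (cutW K.c0 (K.toAct 𝓡 (K.toMk 𝓡 j0 h (Asm.entAct K.s D sd h j0 b))))
      (K.plAct 𝓡 (K.plMk 𝓡 j0 fun i => cutW K.c0 (Asm.entAct K.s D sd i.1 j0 b)) ⟨h, hj, hm⟩) :=
  esp_eqOn_trans (esp_cutW_eqOn K.c0 ((ent_space_torus H hj.le hm).2.2 b hb))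
    (esp_eqOn_symm ((ent_space_plane H op hop).2.2.2 b hb ⟨h, hj, hm⟩))

/-- **TOP CONTRACT: `Asm.RawEntryOK` for the concrete system** -/
theorem ent_space (RK : Asm.RawK) (κe : Flow.EntC)
    (H : EntIn K 𝓡 D Claims.C0459.xyCritical a o (κe.c / (sd : ℝ) ^ 2) ε sd j0 c0' big) (hA : 0 < K.p.A) (op : K.Ops 𝓡)
    (hop : K.OpsOK 𝓡 j0 op) (rd : Asm.Rd K 𝓡) (hside : κe.q0 * sd = RK.L ^ j0) :
    Asm.RawEntryOK RK κe ε sd (Asm.concSys K 𝓡 hA j0 op D sd rd) where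
  side := hside
  K0_an := (ent_space_plane H op hop).1
  K0_bd := (ent_space_plane H op hop).2.1
  K0_re := (ent_space_plane H op hop).2.2.1
  T0_an := fun h hj => by
    by_cases hm : 𝓡.hmin ≤ h
    · have := (ent_space_torus H hj hm).1
      refine this.congr fun b _ => ?_
      show (if 𝓡.hmin ≤ h then K.toMk 𝓡 j0 h (Asm.entAct K.s D sd h j0 b) else 0) = _
      rw [if_pos hm]
    · refine (differentiableOn_const (0 : K.To 𝓡 j0 h)).congr fun b _ => ?_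
      show (if 𝓡.hmin ≤ h then K.toMk 𝓡 j0 h (Asm.entAct K.s D sd h j0 b) else 0) = _
      rw [if_neg hm]
  T0_bd := fun h hj b hb => by
    show ‖(if 𝓡.hmin ≤ h then K.toMk 𝓡 j0 h (Asm.entAct K.s D sd h j0 b) else 0)‖ ≤ ε
    by_cases hm : 𝓡.hmin ≤ h
    · rw [if_pos hm]; exact (ent_space_torus H hj hm).2.1 b hb
    · rw [if_neg hm, norm_zero]; exact H.hε

end ent

/-! ## E. `EntIn` from the conclusion of `F4b.initialization` -/

/-- the retained tori have side `≥ sd P₀` -/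
theorem esp_hmin_side (s : Sc) (hℓ : 1 ≤ s.ℓ) (sd P0 : ℕ) {h : ℕ} (hh : Asm.hmin s sd P0 ≤ h) : sd * P0 ≤ (s.T h).M := by
  have hL : 2 ≤ s.L := by
    have : 2 ^ 1 ≤ 2 ^ s.ℓ := Nat.pow_le_pow_right (by norm_num) hℓ
    simpa [Sc.L] using this
  have hne : {h | sd * P0 ≤ s.D0 * s.L ^ h}.Nonempty := by
    refine ⟨sd * P0, ?_⟩
    have h1 : sd * P0 < s.L ^ (sd * P0) := Nat.lt_pow_self hL
    have h2 : s.L ^ (sd * P0) ≤ s.D0 * s.L ^ (sd * P0) := Nat.le_mul_of_pos_left _ s.hD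
    exact (h1.trans_le h2).le
  have h0 : sd * P0 ≤ s.D0 * s.L ^ (Asm.hmin s sd P0) := Nat.sInf_mem hne
  exact h0.trans (Nat.mul_le_mul_left _ (Nat.pow_le_pow_right s.L_pos hh))

/-- the volumes of the retained tori are admissible -/
theorem esp_vol_adm (s : Sc) (hℓ : 1 ≤ s.ℓ) {q R sd j0 h : ℕ} (hq : q * R * sd = s.L ^ j0) (hj : j0 ≤ h)
    (hh : Asm.hmin s sd (R ^ 5) ≤ h) (hd : sd ∣ s.L ^ (min j0 h)) : (Asm.vol s sd h j0 hd).Adm q R sd where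
  hs := rfl
  hm := by
    show s.L ^ (min j0 h) = q * R * sd
    rw [min_eq_left hj, hq]
  side := esp_hmin_side s hℓ sd (R ^ 5) hh
  centred := fun hb => by cases hb

/-- **`EntIn` at P14**: `hE` is the last line of `F4b.initialization` (all admissible volumes), `hgs`, `hobs` come from TOWER (`Asm.obsReg`: `hgs` is `dif_pos`) -/
theorem entIn_mk (K : Cfg) (𝓡 : Reg K.s) (D : EntryData) (b0 a : ℝ) (o : ObsPar) (r ε : ℝ) (q R sd j0 c0' big : ℕ)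
    (hA : 0 < K.p.A) (hR : RR ≤ K.c.R) (hε : 0 ≤ ε) (hc0 : c0' ≤ K.c0) (hℓ : 1 ≤ K.s.ℓ) (hD : 2 ≤ K.s.D0) (hq : q * R * sd = K.s.L ^ j0)
    (hmin : 𝓡.hmin = Asm.hmin K.s sd (R ^ 5))
    (hgs : ∀ h, j0 ≤ h → 𝓡.hmin ≤ h → ∀ hd : sd ∣ (K.s.T h).M, 𝓡.gs h = torusGrid (K.s.T h) sd hd)
    (hobs : ∀ h, j0 ≤ h → 𝓡.hmin ≤ h → IsObs o (𝓡.gs h) (K.s.lev h j0) (𝓡.V h j0))
    (hE : ∀ 𝒱 : Vol, 𝒱.Adm q R sd → BulkOK D b0 a K.p o r ε 𝒱 ∧ ∀ 𝒱' : Vol, 𝒱'.Adm q R sd → CopyOK D b0 K.p.h0 c0' r big 𝒱 𝒱') :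
    EntIn K 𝓡 D b0 a o r ε sd j0 c0' big where
  hA := hA
  hR := hR
  hε := hε
  hc0 := hc0
  hsd := ⟨q * R, by rw [← hq]; ring⟩
  hM := fun h hj => by
    have h1 : 2 ^ 1 ≤ K.s.L ^ h := by
      have h2 : 2 ^ 1 ≤ 2 ^ (K.s.ℓ * h) := Nat.pow_le_pow_right (by norm_num) (Nat.mul_pos hℓ (Nat.zero_lt_of_lt hj))
      rwa [pow_mul] at h2
    have h3 : 2 * 2 ^ 1 ≤ K.s.D0 * K.s.L ^ h := Nat.mul_le_mul hD h1
    exact le_trans (by norm_num) h3
  cells := fun h hj hh hd => hgs h hj hh _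
  obs := hobs
  bulk := fun h hj hh hd => (hE _ (esp_vol_adm K.s hℓ hq hj (hmin ▸ hh) hd)).1
  copy := fun h h' hj hh hj' hh' hd hd' =>
    (hE _ (esp_vol_adm K.s hℓ hq hj (hmin ▸ hh) hd)).2 _ (esp_vol_adm K.s hℓ hq hj' (hmin ▸ hh') hd')

end

end Claimed.Agent.R285.EntSp
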