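import Claimed.Agent.R285.Asm.EntSp
import Claimed.Agent.R285.Rdo.Defs

/-!
# ROW 285, ENT-SPACE for READOUT: `Rdo.EntOK` for the physical entries of the concrete system        (owner helper38)

`ent_space_rdo`: the two fields of `Rdo.EntOK` (`copy` = `ent_space_copy`; `ident` = `F4b.BulkOK.ident` read through the dictionary `toAct (toMk R) = R` in the strips) from `EntIn`.
Parameters: `B = {b | |b - b0| < r}`, valid stops `Vd h = (𝓡.hmin ≤ h)`; the entries are VERBATIM the fields `K0 j0`, `T0 j0` of `Asm.concSys`.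
Extra hypotheses: `0 < K.p.h0` (real fields lie in the strips), `K.c.R = RR`, `Rdo.aa K = a`.
-/

set_option autoImplicit false

namespace Claimed.Agent.R285.EntSp

open scoped BigOperators ENNReal NNReal
open Claimed.Agent.R285 Claimed.Agent.R285.RG Claimed.Agent.R285.B4 Claimed.Agent.R285.B8 Claimed.Agent.R285.F4a
  Claimed.Agent.R285.F4b

noncomputable section

/-- the partition functional at a point only sees the values of the activities at this point -/
theorem esp_ZA_congr {G : Geom} (g : Grid G) (R : ℕ) (A A' : Act g) (z : G.V → ℂ) (h : ∀ X, A X z = A' X z) :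
    ZA g R A z = ZA g R A' z := by
  unfold ZA
  simp only [Finset.sum_apply, Finset.prod_apply, h]

theorem esp_single_zero {G : Geom} (g : Grid G) (α : ℝ) : single g α 0 0 = 0 := by
  funext X
  unfold single
  simp

theorem esp_toC_mem_strip {G : Geom} {h0 : ℝ≥0} (hh : 0 < h0) (g : Grid G) (X : Finset g.I) (φ : G.V → ℝ) : toC φ ∈ strip h0 g X :=
  Scal.toC_mem_strip hh g X φ

variable {K : Cfg} {𝓡 : Reg K.s} {D : EntryData} {b0 a : ℝ} {o : ObsPar} {r ε : ℝ} {sd j0 c0' big : ℕ}

/-- **EXPORT 4 (for READOUT)** -/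
theorem ent_space_rdo (H : EntIn K 𝓡 D b0 a o r ε sd j0 c0' big) (op : K.Ops 𝓡) (hop : K.OpsOK 𝓡 j0 op) (hh0 : 0 < K.p.h0)
    (hR : K.c.R = RR) (ha : Rdo.aa K = a) :
    Rdo.EntOK K 𝓡 j0 {b | |b - b0| < r} (fun h => 𝓡.hmin ≤ h)
      (fun b => K.plMk 𝓡 j0 fun i => cutW K.c0 (Asm.entAct K.s D sd i.1 j0 b))
      (fun h b => if 𝓡.hmin ≤ h then K.toMk 𝓡 j0 h (Asm.entAct K.s D sd h j0 b) else 0) where
  copy := fun b hb h hj hm => by
    have hb' : (b : ℂ) ∈ Metric.ball (b0 : ℂ) r := by
      rw [Metric.mem_ball, Complex.dist_eq, ← Complex.ofReal_sub, Complex.norm_real]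
      exact hb
    simp only [if_pos hm]
    exact ent_space_copy H op hop hj hm hb'
  ident := fun b hb h hj hm => by
    subst ha
    have hb' : (b : ℂ) ∈ Metric.ball (b0 : ℂ) r := by
      rw [Metric.mem_ball, Complex.dist_eq, ← Complex.ofReal_sub, Complex.norm_real]
      exact hb
    obtain ⟨hc, hid⟩ := (H.bulk h hj hm (H.dvd hj)).ident b hb
    refine ⟨_, hc, fun ψ => ?_⟩
    have h1 := hid ψ
    rw [← H.cells h hj hm (H.dvd hj)] at h1
    have hm' : (Asm.vol K.s sd h j0 (H.dvd hj)).g.m = K.s.L ^ j0 := by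
      show K.s.L ^ (min j0 h) = K.s.L ^ j0
      rw [min_eq_left hj]
    rw [hm'] at h1
    refine h1.trans ?_
    congr 1
    simp only [if_pos hm]
    unfold Rdo.Zlev
    rw [hR]
    refine esp_ZA_congr _ _ _ _ _ fun X => ?_
    have h2 := (ent_space_torus H hj hm).2.2 b hb' X (toC ψ) (esp_toC_mem_strip hh0 _ X ψ)
    unfold Kof
    rw [esp_single_zero, zero_add]
    refine Eq.trans ?_ h2.symm
    rw [H.act_eq hj]
    rfl

end

end Claimed.Agent.R285.EntSp
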