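import Claimed.Agent.R285.Asm.ConcDefs
import Claimed.Agent.R285.Map.Tower

/-!
# ROW 285, post BP-TOWER (#14968): the concrete tower `Asm.obsReg` (`Asm/ConcDefs.lean`) is a tower of observation regulators      (helper290)

`obsReg_isObsTower` + `Tow.tower_obs` = TOWER-4 of the parameter protocol: `TowerOK`, `TermOK`, `IsObs` for `𝓡 := obsReg X.K.s X.o sd P0`.  No `sorry` in this file.
-/

set_option autoImplicit false

namespace Claimed.Agent.R285.Asm

open Claimed.Agent.R285.RG Claimed.Agent.R285.B4 Claimed.Agent.R285.B8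

theorem obsReg_isObsTower (s : Sc) (o : ObsPar) (P0 : ℕ) {sd j0 : ℕ} (hsd0 : 0 < sd) (hsd : sd ∣ s.L ^ j0) :
    Tow.IsObsTower s o sd j0 (obsReg s o sd P0) := by
  have key : ∀ h j, j0 ≤ j → j ≤ h →
      F4a.IsObs o ((obsReg s o sd P0).gs h) (s.lev h j) ((obsReg s o sd P0).V h j) ∧ ((obsReg s o sd P0).V h j).sep ≤ 2 * pp + 8 := by
    intro h j hj0 hj
    have hx : ∃ V : Extra (s.lev h j),
        F4a.IsObs o (if hd : sd ∣ (s.T h).M then torusGrid (s.T h) sd hd else s.lev h 0) (s.lev h j) V ∧ V.sep ≤ 2 * pp + 8 := by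
      obtain ⟨V, h1, h2⟩ := Tow.tw_obs_exists s o hsd0 hsd hj0 hj
      exact ⟨V, h2, h1⟩
    have e : (obsReg s o sd P0).V h j = hx.choose := dif_pos hx
    rw [e]
    exact hx.choose_spec
  exact ⟨fun h _ hd => dif_pos hd, fun h j hj0 hj => (key h j hj0 hj).1, fun h j hj0 hj => (key h j hj0 hj).2⟩

end Claimed.Agent.R285.Asm
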