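import Claimed.Agent.R285.Asm.TopDefs
import Claimed.Agent.R285.Asm.EntRdo
import Claimed.Agent.R285.Rdo.Exit
import Claimed.Agent.R285.Rdo.ExGeo
import Claimed.Agent.R285.Flow.Gauss
import Claimed.Agent.R285.TopXY

/-!
# ROW 285, ASSEMBLY, READOUT layer B (second architect helper231; chief helper16; consumer helper27): `Asm.readout_top`

`Asm.readout_top` (statement fixed with helper27, defs in `Asm/TopDefs.lean`) is PROVED here from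
* `Rdo.rdo_out : StopOut` (helper16, `Rdo/Exit.lean`: read-outs, multipliers, response, representation in the vocabulary `(K, 𝓡)`),
* `EntSp.ent_space_rdo : Rdo.EntOK` (helper38, `Asm/EntRdo.lean`),
* `Rdo.rdo_x_*` (`Rdo/ExGeo.lean`: cells of `Asm.obsReg`),  `Rdo.rdo_wt_zhat`, `Rdo.rdo_hav_eq` (`Rdo/Src.lean`).
Sections: 1 the dictionary `B10.pl / B10.tr` of `Asm.concSys` → `Rdo.THist` (physical and pure histories);  2 `Rdo.RepIn` for the cutoff weight;  3 `RdIn ⟹ ReadTop` (all fields);  4 the prefix of constants.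
Prefix of the helper lemmas: `rt_`.   No `sorry` in this file.
-/

set_option autoImplicit false

namespace Claimed.Agent.R285.Asm

open scoped BigOperators ENNReal NNReal
open Filter Topology Claims.C0459
open Claimed.Agent.R285.RG Claimed.Agent.R285.B4 Claimed.Agent.R285.B8 Claimed.Agent.R285.Flow Claimed.Agent.R285.B10

noncomputable section

/-! ## 1. The dictionary -/

theorem rt_chain_mono {K : Cfg} {𝓡 : Reg K.s} {j0 : ℕ} {ρ ρ' d1 Ce : ℝ} (h : Rdo.ChainOK K 𝓡 j0 ρ d1 Ce) (hρ : ρ' ≤ ρ) : Rdo.ChainOK K 𝓡 j0 ρ' d1 Ce where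
  cp := fun j hh hj hjh x a hx ha => h.cp j hh hj hjh x a (hx.trans_le hρ) (ha.trans_le hρ)
  cp_of_eq := h.cp_of_eq
  exact := fun j hh hj hjh X hX => h.exact j hh hj hjh X (Metric.ball_subset_ball hρ hX)
  exp_eq := h.exp_eq
  exp_bd := h.exp_bd
  exp_cp := h.exp_cp

/-- a plane history and the torus history driven by its scalars form a history of torus states; copying at the entry is needed only if there is a step -/
theorem rt_thist {K : Cfg} {𝓡 : Reg K.s} {j0 h : ℕ} {ρ d1 Ce : ℝ} (hch : Rdo.ChainOK K 𝓡 j0 ρ d1 Ce) (hcos : K.cosOn = true)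
    (x : ∀ j, ℂ × ℂ × K.Pl 𝓡 j) (a : ∀ j, K.To 𝓡 j h)
    (xs : ∀ j, j0 ≤ j → j < h → x (j + 1) = K.Phi 𝓡 j (x j))
    (as : ∀ j, j0 ≤ j → j < h → a (j + 1) = K.Psi 𝓡 j h (((x j).1, (x j).2.1), a j))
    (xin : ∀ j, j0 ≤ j → j ≤ h → ‖x j‖ < ρ) (ain : ∀ j, j0 ≤ j → j ≤ h → ‖a j‖ < ρ)
    (cp0 : j0 < h → Rdo.IsCp K 𝓡 j0 h (a j0) (x j0).2.2) :
    Rdo.THist K 𝓡 j0 h ρ fun j => (((x j).1, (x j).2.1), a j) := by
  have hz : K.cosOn = false → False := fun hc => by rw [hcos] at hc; exact Bool.noConfusion hc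
  by_cases hj : j0 < h
  · exact Rdo.HistOK.toT hch ⟨xs, as, xin, ain, fun hc => (hz hc).elim, cp0 hj⟩
  · exact ⟨fun j h1 h2 => absurd (lt_of_le_of_lt h1 h2) hj,
      fun j h1 h2 => Rdo.rdo_norm_st K 𝓡 (x j) (a j) (xin j h1 h2) (ain j h1 h2), fun hc => (hz hc).elim⟩

section conc

variable (K : Cfg) (𝓡 : Reg K.s) (hA : 0 < K.p.A) (j0 : ℕ) (ops : K.Ops 𝓡) (D : F4b.EntryData) (sd : ℕ) (rd : Rd K 𝓡)

/-- the physical plane entry of `concSys` -/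
abbrev cK0 (b : ℂ) : K.Pl 𝓡 j0 := K.plMk 𝓡 j0 fun i => cutW K.c0 (entAct K.s D sd i.1 j0 b)

/-- the physical torus entries of `concSys` -/
abbrev cT0 (h : ℕ) (b : ℂ) : K.To 𝓡 j0 h := if 𝓡.hmin ≤ h then K.toMk 𝓡 j0 h (entAct K.s D sd h j0 b) else 0

theorem rt_pl_entry (b : ℂ) : (concSys K 𝓡 hA j0 ops D sd rd).pl b j0 = (0, 0, cK0 K 𝓡 j0 D sd b) :=
  congrFun (B10.gc_pl_le (concSys K 𝓡 hA j0 ops D sd rd).F (concSys K 𝓡 hA j0 ops D sd rd).eK (j := j0) le_rfl) b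

theorem rt_tr_entry (b : ℂ) (h : ℕ) : (concSys K 𝓡 hA j0 ops D sd rd).tr b h j0 = cT0 K 𝓡 j0 D sd h b :=
  congrFun (B10.gc_tr_le (concSys K 𝓡 hA j0 ops D sd rd).F (concSys K 𝓡 hA j0 ops D sd rd).tor (concSys K 𝓡 hA j0 ops D sd rd).eK
    (concSys K 𝓡 hA j0 ops D sd rd).T0 h (j := j0) le_rfl) b

theorem rt_gpl_entry (d : ℂ) : (concSys K 𝓡 hA j0 ops D sd rd).gpl d j0 = K.eExp 𝓡 j0 d 0 :=
  congrFun (B10.gc_pl_le (concSys K 𝓡 hA j0 ops D sd rd).F (concSys K 𝓡 hA j0 ops D sd rd).e (j := j0) le_rfl) d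

theorem rt_gtr_entry (d : ℂ) (h : ℕ) : (concSys K 𝓡 hA j0 ops D sd rd).gtr d h j0 = K.eExpT 𝓡 j0 h d 0 :=
  congrFun (B10.gc_tr_le (concSys K 𝓡 hA j0 ops D sd rd).F (concSys K 𝓡 hA j0 ops D sd rd).tor (concSys K 𝓡 hA j0 ops D sd rd).e
    (concSys K 𝓡 hA j0 ops D sd rd).eT h (j := j0) le_rfl) d

variable {K 𝓡 j0 D sd}

/-- **the physical history** -/
theorem rt_phys_thist {ρ d1 Ce : ℝ} (hch : Rdo.ChainOK K 𝓡 j0 ρ d1 Ce) (hcos : K.cosOn = true) {B : Set ℝ} {Vd : ℕ → Prop}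
    (hent : Rdo.EntOK K 𝓡 j0 B Vd (cK0 K 𝓡 j0 D sd) (cT0 K 𝓡 j0 D sd)) {b : ℝ} (hb : b ∈ B) {h : ℕ} (hm : 𝓡.hmin ≤ h)
    (hin : (concSys K 𝓡 hA j0 ops D sd rd).Inside ρ b h) :
    Rdo.THist K 𝓡 j0 h ρ fun j => (concSys K 𝓡 hA j0 ops D sd rd).ts b h j := by
  refine rt_thist hch hcos (fun j => (concSys K 𝓡 hA j0 ops D sd rd).pl b j) (fun j => (concSys K 𝓡 hA j0 ops D sd rd).tr b h j)
    (fun j hj _ => B10.gc_pl_succ (concSys K 𝓡 hA j0 ops D sd rd).F _ hj _)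
    (fun j hj _ => B10.gc_tr_succ (concSys K 𝓡 hA j0 ops D sd rd).F (concSys K 𝓡 hA j0 ops D sd rd).tor _ _ h hj _)
    (fun j h1 h2 => (hin j h1 h2).1) (fun j h1 h2 => lt_of_le_of_lt (norm_snd_le ((concSys K 𝓡 hA j0 ops D sd rd).ts b h j)) (hin j h1 h2).2) fun hj => ?_
  show Rdo.IsCp K 𝓡 j0 h ((concSys K 𝓡 hA j0 ops D sd rd).tr b h j0) ((concSys K 𝓡 hA j0 ops D sd rd).pl b j0).2.2
  rw [rt_pl_entry, rt_tr_entry]
  exact hch.cp_of_eq j0 h hj hm _ _ (hent.copy b hb h hj hm)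

/-- **the pure history** -/
theorem rt_pure_thist {ρ d1 Ce : ℝ} (hch : Rdo.ChainOK K 𝓡 j0 ρ d1 Ce) (hcos : K.cosOn = true) {d : ℂ} (hd : ‖d‖ < d1) {h : ℕ} (hj : j0 ≤ h)
    (hin : ∀ j, j0 ≤ j → j ≤ h → ‖(concSys K 𝓡 hA j0 ops D sd rd).gpl d j‖ < ρ ∧ ‖(concSys K 𝓡 hA j0 ops D sd rd).gtr d h j‖ < ρ) :
    Rdo.THist K 𝓡 j0 h ρ fun j => (concSys K 𝓡 hA j0 ops D sd rd).gts d h j := by
  refine rt_thist hch hcos (fun j => (concSys K 𝓡 hA j0 ops D sd rd).gpl d j) (fun j => (concSys K 𝓡 hA j0 ops D sd rd).gtr d h j)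
    (fun j hj _ => B10.gc_pl_succ (concSys K 𝓡 hA j0 ops D sd rd).F _ hj _)
    (fun j hj _ => B10.gc_tr_succ (concSys K 𝓡 hA j0 ops D sd rd).F (concSys K 𝓡 hA j0 ops D sd rd).tor _ _ h hj _)
    (fun j h1 h2 => (hin j h1 h2).1) (fun j h1 h2 => (hin j h1 h2).2) fun _ => ?_
  show Rdo.IsCp K 𝓡 j0 h ((concSys K 𝓡 hA j0 ops D sd rd).gtr d h j0) ((concSys K 𝓡 hA j0 ops D sd rd).gpl d j0).2.2
  rw [rt_gpl_entry, rt_gtr_entry]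
  exact hch.exp_cp j0 h hj d hd

theorem rt_gts_entry (d : ℂ) (h : ℕ) : (concSys K 𝓡 hA j0 ops D sd rd).gts d h j0 = ((d, 0), K.eExpT 𝓡 j0 h d 0) := by
  show ((((concSys K 𝓡 hA j0 ops D sd rd).gpl d j0).1, ((concSys K 𝓡 hA j0 ops D sd rd).gpl d j0).2.1), (concSys K 𝓡 hA j0 ops D sd rd).gtr d h j0) = _
  rw [rt_gpl_entry, rt_gtr_entry]
  rfl

/-! ## 2. The hypotheses of the representation for the cutoff weight -/

theorem rt_repIn {ρ d1 Ce : ℝ} (hch : Rdo.ChainOK K 𝓡 j0 ρ d1 Ce) (hcos : K.cosOn = true) {B : Set ℝ}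
    (hent : Rdo.EntOK K 𝓡 j0 B (fun h => 𝓡.hmin ≤ h) (cK0 K 𝓡 j0 D sd) (cT0 K 𝓡 j0 D sd)) {b : ℝ} (hb : b ∈ B) (hb0 : 0 < b) {h : ℕ} (hj : j0 ≤ h)
    (hm : 𝓡.hmin ≤ h) (hw : F4a.Whole (𝓡.gs h)) (h3 : 3 ≤ (𝓡.gs h).n) (hin : (concSys K 𝓡 hA j0 ops D sd rd).Inside ρ b h) :
    Rdo.RepIn K 𝓡 j0 h ρ (fun j => (concSys K 𝓡 hA j0 ops D sd rd).ts b h j) ((F4a.Top.full (𝓡.gs h)).Zhat b 0) where
  hj := hj
  h3 := h3
  hist := rt_phys_thist hA ops rd hch hcos hent hb hm hin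
  wt := Rdo.rdo_wt_zhat rfl b hb0 (𝓡.gs h) hw
  scal := by
    show (((concSys K 𝓡 hA j0 ops D sd rd).pl b j0).1, ((concSys K 𝓡 hA j0 ops D sd rd).pl b j0).2.1) = (0, 0)
    rw [rt_pl_entry]
  ident := by
    obtain ⟨cG, hcG, hid⟩ := hent.ident b hb h hj hm
    have hZ : 0 < (F4a.Top.full (𝓡.gs h)).Zobs b 0 0 := F4a.Zobs_pos hw _ b hb0 0 0
    refine ⟨cG * (F4a.Top.full (𝓡.gs h)).Zobs b 0 0, mul_pos hcG hZ, fun ψ => ?_⟩
    show _ = _ * Rdo.Zlev K 𝓡 j0 h ((0, 0), (concSys K 𝓡 hA j0 ops D sd rd).tr b h j0) (toC ψ)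
    rw [rt_tr_entry]
    have h1 := hid ψ
    rw [Rdo.rdo_hav_eq] at h1
    have h2 : Rdo.HavW (Rdo.aa K) (𝓡.gs h) (K.s.L ^ j0) ((F4a.Top.full (𝓡.gs h)).Zhat b 0) ψ
        = Rdo.HavW (Rdo.aa K) (𝓡.gs h) (K.s.L ^ j0) ((F4a.Top.full (𝓡.gs h)).Zhat b 0) ψ / (F4a.Top.full (𝓡.gs h)).Zobs b 0 0
          * (F4a.Top.full (𝓡.gs h)).Zobs b 0 0 := by
      field_simp
    rw [h2, Complex.ofReal_mul, h1]
    push_cast
    ring

end conc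

/-! ## 3. All fields -/

/-- **what READOUT needs about one side** -/
structure RdIn (Kc : Cfg) (𝓡 : Reg Kc.s) (j0 sd : ℕ) (ops : Kc.Ops 𝓡) (D : F4b.EntryData) (w0 d1 C c Ce : ℝ) (K : RawK) (κe : EntC) : Prop where
  hcos : Kc.cosOn = true
  out : Rdo.StopOut Kc 𝓡 j0 w0 (fun h => ops.σT h h) K.κ.ρ d1 C c
  chain : Rdo.ChainOK Kc 𝓡 j0 K.κ.ρ d1 Ce
  ent : Rdo.EntOK Kc 𝓡 j0 {b : ℝ | (b : ℂ) ∈ disk κe sd} (fun h => 𝓡.hmin ≤ h) (cK0 Kc 𝓡 j0 D sd) (cT0 Kc 𝓡 j0 D sd)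
  bpos : ∀ b : ℝ, (b : ℂ) ∈ disk κe sd → 0 < b
  whole : ∀ h, j0 ≤ h → F4a.Whole (𝓡.gs h)
  n3 : ∀ h, j0 ≤ h → 3 ≤ (𝓡.gs h).n
  hn : ∀ h, K.n h = (Kc.s.T h).M
  hL : K.L = Kc.s.L
  snr : ∀ h, j0 ≤ h → Rdo.snr (𝓡.gs h) = (sd : ℝ) / K.n h
  hmin : ∀ h, sd * κe.P0 ≤ K.n h → 𝓡.hmin ≤ h
  hC0 : 0 < C
  hC : C ≤ K.κ.C
  hc : K.cp ≤ c
  hd1 : K.d1 ≤ d1
  hp : ∀ h, j0 ≤ h → K.p h = Rdo.pH Kc h

theorem rt_core {Kc : Cfg} {𝓡 : Reg Kc.s} {j0 sd : ℕ} {ops : Kc.Ops 𝓡} {D : F4b.EntryData} {w0 d1 C c Ce : ℝ} {K : RawK} {κe : EntC}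
    (I : RdIn Kc 𝓡 j0 sd ops D w0 d1 C c Ce K κe) (hA : 0 < Kc.p.A) :
    ReadTop K κe sd (concSys Kc 𝓡 hA j0 ops D sd (rdOf Kc 𝓡 w0 j0)) := by
  have hmul : ∀ {t : ℝ}, 0 ≤ t → C * t ≤ K.κ.C * t := fun ht => mul_le_mul_of_nonneg_right I.hC ht
  have hrep : ∀ (b : ℝ) (h : ℕ), (b : ℂ) ∈ disk κe sd → ValidR K κe sd j0 h → (concSys Kc 𝓡 hA j0 ops D sd (rdOf Kc 𝓡 w0 j0)).Inside K.κ.ρ b h →
      Rdo.RepIn Kc 𝓡 j0 h K.κ.ρ (fun j => (concSys Kc 𝓡 hA j0 ops D sd (rdOf Kc 𝓡 w0 j0)).ts b h j) ((F4a.Top.full (𝓡.gs h)).Zhat b 0) :=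
    fun b h hb hv hin => rt_repIn hA ops _ I.chain I.hcos I.ent hb (I.bpos b hb) hv.1 (I.hmin h hv.2.1) (I.whole h hv.1) (I.n3 h hv.1) hin
  refine ⟨fun hc => ?_, fun h hh d hd hin => ?_, fun h hh => (I.out.kV_hi h hh).trans I.hC⟩
  · exact
      { rV_an := I.out.rV_an
        rP_an := I.out.rP_an
        rM_an := I.out.rM_an
        rV_bd := fun h hh X hX => (I.out.rV_bd h hh X hX).trans (hmul (by positivity))
        rP_bd := fun h hh X hX => (I.out.rP_bd h hh X hX).trans (hmul (by positivity))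
        rM_bd := fun h hh X hX => (I.out.rM_bd h hh X hX).trans (hmul (by positivity))
        rV_par := fun h hh X _ => I.out.rV_par h hh X
        rP_par := fun h hh X _ => I.out.rP_par h hh X
        rM_par := fun h hh X _ => I.out.rM_par h hh X
        v0_bd := fun h hh => by
          have := (I.out.mult h hh).v0_bd
          rw [I.snr h hh, ← I.hn h] at this
          exact this.trans (hmul (by positivity))
        kV_bd := fun h hh => by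
          have := (I.out.mult h hh).kV_bd
          rw [I.snr h hh, ← I.hn h] at this
          exact this.trans (hmul (by positivity))
        kV_lo := fun h hh => by
          have h1 := (I.out.mult h hh).kV_lo
          exact (one_div_le_one_div_of_le I.hC0 I.hC).trans h1
        kP_bd := fun h hh => by
          have := (I.out.mult h hh).kP_bd
          rw [I.snr h hh, ← I.hp h hh] at this
          exact this.trans (hmul (by positivity))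
        kM_bd := fun h hv => ⟨I.hc.trans (I.out.mult h hv.1).kM_bd.1, (I.out.mult h hv.1).kM_bd.2.trans I.hC⟩
        pG_bd := fun h hh => by
          obtain ⟨p0, p1, p2⟩ := I.out.pG_bd h hh
          refine ⟨p0, p1, ?_⟩
          rw [← I.hn h, ← I.hL] at p2
          exact p2.trans (hmul (by positivity))
        repV := fun b h hb hv hin => (I.out.rep h _ _ (hrep b h hb hv hin)).1
        repP := fun b h hb hv hin => (I.out.rep h _ _ (hrep b h hb hv hin)).2.1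
        repM := fun b h hb hv hin => (I.out.rep h _ _ (hrep b h hb hv hin)).2.2
        cmpV := hc.cmpV
        cmpP := hc.cmpP
        cmpM := hc.cmpM
        lipV := hc.lipV
        lipP := hc.lipP }
  · have hd' : ‖d‖ < d1 := (mem_ball_zero_iff.1 hd).trans_le I.hd1
    exact I.out.resp h hh _ (rt_pure_thist hA ops _ I.chain I.hcos hd' hh hin) d hd' (rt_gts_entry hA ops _ d h)

/-! ## 4. The prefix of constants -/

theorem rt_exists_k0 (cR : ℝ) : ∃ k0 : ℕ, ∀ ks, k0 ≤ ks → cR / ((2 : ℝ) ^ ks) ^ 2 ≤ xyCritical := by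
  have hb := xy_critical_pos
  obtain ⟨k0, hk0⟩ := pow_unbounded_of_one_lt (cR / xyCritical) (one_lt_two : (1 : ℝ) < 2)
  refine ⟨k0, fun ks hks => ?_⟩
  have h1 : (2 : ℝ) ^ k0 ≤ (2 : ℝ) ^ ks := pow_le_pow_right₀ (by norm_num) hks
  have h2 : (1 : ℝ) ≤ (2 : ℝ) ^ ks := one_le_pow₀ (by norm_num)
  have h3 : (2 : ℝ) ^ ks ≤ ((2 : ℝ) ^ ks) ^ 2 := by nlinarith
  rw [div_le_iff₀ (by positivity)]
  rw [div_lt_iff₀ hb] at hk0
  have := mul_le_mul_of_nonneg_right (h1.trans h3) hb.le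
  linarith

theorem rt_bulk {D : F4b.EntryData} {b0 a : ℝ} {p : Par} {o : ObsPar} {r r' ε ε' : ℝ} {𝒱 : F4b.Vol} (h : F4b.BulkOK D b0 a p o r ε 𝒱) (hr : r' ≤ r)
    (hε : ε ≤ ε') : F4b.BulkOK D b0 a p o r' ε' 𝒱 where
  ok := fun b hb => h.ok b (Metric.ball_subset_ball hr hb)
  hol := fun X z hz => (h.hol X z hz).mono (Metric.ball_subset_ball hr)
  real := fun b hb => h.real b (lt_of_lt_of_le hb hr)
  even := fun b hb => h.even b (Metric.ball_subset_ball hr hb)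
  sym := fun hp b hb => h.sym hp b (Metric.ball_subset_ball hr hb)
  norm := fun b hb V hV => (h.norm b (Metric.ball_subset_ball hr hb) V hV).trans (ENNReal.ofReal_le_ofReal hε)
  ident := fun b hb => h.ident b (lt_of_lt_of_le hb hr)

theorem rt_copy {D : F4b.EntryData} {b0 : ℝ} {h0 : ℝ≥0} {c0 : ℕ} {r r' : ℝ} {big : ℕ} {𝒱 𝒱' : F4b.Vol} (h : F4b.CopyOK D b0 h0 c0 r big 𝒱 𝒱')
    (hr : r' ≤ r) : F4b.CopyOK D b0 h0 c0 r' big 𝒱 𝒱' where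
  bulk := fun b hb => h.bulk b (Metric.ball_subset_ball hr hb)
  unitK := h.unitK
  unitJ := h.unitJ

theorem rt_ent_mono {K : Cfg} {𝓡 : Reg K.s} {j0 : ℕ} {B B' : Set ℝ} {Vd : ℕ → Prop} {K0 : ℂ → K.Pl 𝓡 j0} {T0 : ∀ h, ℂ → K.To 𝓡 j0 h}
    (h : Rdo.EntOK K 𝓡 j0 B Vd K0 T0) (hB : B' ⊆ B) : Rdo.EntOK K 𝓡 j0 B' Vd K0 T0 :=
  ⟨fun b hb => h.copy b (hB hb), fun b hb => h.ident b (hB hb)⟩

theorem rt_disk {κe : EntC} {s : ℕ} {b : ℝ} (hb : (b : ℂ) ∈ disk κe s) : |b - xyCritical| < κe.c / (s : ℝ) ^ 2 := by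
  unfold disk at hb
  rwa [Metric.mem_ball, Complex.dist_eq, ← Complex.ofReal_sub, Complex.norm_real] at hb

/-- **READOUT** (`R285/Rdo/*`), steps P8 (`D1`), P10, P13, P14.  First the read-out constants `ρr, Cr, cr`, the source `w0` and a first scale `jr` (they depend on `X`, `κr`, `cT` only);
then, for every entry parameter, a first side `k0`. -/
theorem readout_top : ∃ D1 : ℕ, ∀ (X : Fixed) (_ : X.Ok), D1 ≤ X.K.s.D0 → ∀ (oT : ObsPar) (qA : ℝ) (κr : RawC) (d1 Hq : ℝ) (Cb : ℝ → ℝ) (cT : ℝ≥0) (_ : 0 < d1),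
    ∃ (ρr Cr cr w0 : ℝ) (jr : ℕ), 0 < ρr ∧ ρr ≤ κr.ρ ∧ 0 < cr ∧ w0 ≠ 0 ∧ (∀ h, jr ≤ h → cr ≤ Rdo.pH X.K h ∧ Rdo.pH X.K h ≤ Cr) ∧
    ∀ (E : EntK) (kR : ℕ), E.c0E ≤ X.K.c0 → 1 ≤ kR → ∃ k0 : ℕ, ∀ (K : RawK) (κe : EntC), KFits X K → EFits X E kR κe →
      K.κ.ρ ≤ ρr → Cr ≤ K.κ.C → K.cp ≤ cr → K.w0 = w0 → K.d1 ≤ d1 → (∀ h, jr ≤ h → K.p h = Rdo.pH X.K h) →
      ∀ (ks j0 : ℕ) (ops : X.K.Ops (X.reg (2 ^ ks) ((2 ^ kR) ^ 5))), k0 ≤ ks → jr ≤ j0 → SideOK X oT qA E κr d1 Hq Cb cT kR ks j0 ops →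
        ReadTop K κe (2 ^ ks) (X.Sy w0 kR ks j0 ops) := by
  obtain ⟨w0, D1, hw0, H⟩ := Rdo.rdo_out
  refine ⟨D1, fun X hX hD oT qA κr d1 Hq Cb cT hd1 => ?_⟩
  obtain ⟨ρ1, C, c, hρ1, hC1, hc, H⟩ := H X.K.p.δ X.K.p.κ X.K.p.h0 X.K.p.A cT X.K.s.D0 hX.hδ hX.hκ hX.hh0 hX.hA1 hD
  obtain ⟨hpH, H⟩ := H X.K rfl rfl rfl rfl rfl hX.hF hX.hℓ hX.hω
  refine ⟨min ρ1 κr.ρ, C, c, w0, 0, lt_min hρ1 κr.hρ, min_le_right _ _, hc, hw0.ne', fun h _ => hpH h, fun E kR hc0 hkR => ?_⟩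
  obtain ⟨k0', hk0⟩ := rt_exists_k0 E.cR
  refine ⟨k0', fun K κe hK hE hρ hC hcp _ hd hp ks j0 ops hks _ hS => ?_⟩
  have hD2 : 2 ≤ X.K.s.D0 := by
    obtain ⟨m, hm⟩ := hX.hD2
    have := X.K.s.hD
    omega
  have hq : 2 ≤ 2 ^ X.kq * 2 ^ kR := by
    have h1 : 1 ≤ 2 ^ X.kq := Nat.one_le_two_pow
    have h2 : 2 ^ 1 ≤ 2 ^ kR := Nat.pow_le_pow_right (by norm_num) hkR
    calc 2 = 1 * 2 ^ 1 := by norm_num
      _ ≤ 2 ^ X.kq * 2 ^ kR := Nat.mul_le_mul h1 h2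
  have hsd : 2 ^ ks ∣ X.K.s.L ^ j0 := ⟨2 ^ X.kq * 2 ^ kR, by rw [← hS.side]; ring⟩
  have hn3 : ∀ h, j0 ≤ h → 4 ≤ ((X.reg (2 ^ ks) ((2 ^ kR) ^ 5)).gs h).n ∧ ((X.reg (2 ^ ks) ((2 ^ kR) ^ 5)).gs h).m = 2 ^ ks :=
    fun h hj => Rdo.rdo_x_n3 X.K.s X.o (2 ^ ks) ((2 ^ kR) ^ 5) j0 _ hq hS.side hD2 h hj
  have hn : ∀ h, K.n h = (X.K.s.T h).M := fun h => by
    unfold RawK.n
    rw [hK.L, hK.D0]
    rfl
  have hout := H (X.reg (2 ^ ks) ((2 ^ kR) ^ 5)) j0 κr.ρ d1 κr.C hS.tower hS.geo hS.chain hd1 (fun h hj => le_trans (by norm_num) (hn3 h hj).1)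
    (fun h => ops.σT h h) (fun h a => hS.sys8.ops.σT h h a) K.κ.ρ (hρ.trans (min_le_left _ _)) (hρ.trans (min_le_right _ _))
  have hr : κe.c / (((2 ^ ks : ℕ) : ℝ)) ^ 2 ≤ E.cR / ((2 : ℝ) ^ ks) ^ 2 := by
    push_cast
    exact div_le_div_of_nonneg_right hE.c (by positivity)
  have hIn : EntSp.EntIn X.K (X.reg (2 ^ ks) ((2 ^ kR) ^ 5)) X.D xyCritical k0 X.o (κe.c / (((2 ^ ks : ℕ) : ℝ)) ^ 2) (max E.ε 0) (2 ^ ks) j0 E.c0E
      (E.cmk * (2 ^ ks * (2 ^ kR) ^ 5)) :=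
    EntSp.entIn_mk X.K _ X.D xyCritical k0 X.o _ _ (2 ^ X.kq) (2 ^ kR) (2 ^ ks) j0 E.c0E _ X.hA (le_of_eq hX.hR.symm) (le_max_right _ _) hc0 hX.hℓ hD2
      hS.side rfl (fun hh _ _ hd => dif_pos hd) (fun hh hj _ => hS.obs hh j0 le_rfl hj)
      (fun 𝒱 h𝒱 => ⟨rt_bulk (hS.ent.bulk 𝒱 h𝒱) hr (le_max_left _ _), fun 𝒱' h𝒱' => rt_copy (hS.ent.copy 𝒱 𝒱' h𝒱 h𝒱') hr⟩)
  have hent := EntSp.ent_space_rdo hIn ops hS.sys8.ops hX.hh0 hX.hR (Rdo.rdo_mult_aa X.K hX.hω)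
  refine rt_core (Ce := κr.C) (C := C) (c := c) (d1 := d1)
    { hcos := hX.hcos
      out := hout
      chain := rt_chain_mono hS.chain (hρ.trans (min_le_right _ _))
      ent := rt_ent_mono hent fun b hb => rt_disk hb
      bpos := fun b hb => ?_
      whole := hS.geo.cells
      n3 := fun h hj => le_trans (by norm_num) (hn3 h hj).1
      hn := hn
      hL := hK.L
      snr := fun h hj => ?_
      hmin := fun h hh => ?_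
      hC0 := lt_of_lt_of_le one_pos hC1
      hC := hC
      hc := hcp
      hd1 := hd
      hp := fun h _ => hp h (Nat.zero_le _) } X.hA
  · have h1 := rt_disk hb
    have h2 := hk0 ks hks
    have h3 := (abs_lt.1 (h1.trans_le (hr.trans h2))).1
    linarith
  · rw [hn h]
    exact Rdo.rdo_x_snr X.K.s X.o (2 ^ ks) ((2 ^ kR) ^ 5) j0 hsd h hj
  · refine Nat.sInf_le ?_
    rw [hE.P0, hn h] at hh
    exact hh

end

end Claimed.Agent.R285.Asm
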