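import Claimed.Agent.R285.Flow.Defs

/-!
# ROW 285, ASSEMBLY 2 (owner helper27): the construction contract in RAW (unbalanced) coordinates

`Flow.rg_system` is stated in NORMAL coordinates `(x, y, Q)`.  The construction side works in the unbalanced coordinates `(t, z, R)` of [B] P8.3.
This file fixes what the construction side has to deliver (DEFINITIONS ONLY; the contract itself is `Asm.raw_system_center` in `R285/Asm/Concrete.lean`);
`R285/Asm/RawGlue.lean` derives `Flow.rg_system` (+ the centre observable) from it by the abstract bridge B10 (helper21, helper177).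

## Producers of the fields
* `RawMapOK`  : **MAP** (post BP-MAP-PACK: `raw`, `Ψ_*`, `σT_*`, `pure`, `resp`;   post BP-F5-L53: `block`).
* `RawEntryOK`: **ENTRY** (bulk part of `F4b.initialization` = [F] T4.6 + [E] P3.1, put into the Banach spaces of MAP-PACK).
* `RawReadOK` : **READOUT** (post BP-READOUT: `r*_an`, `r*_bd`, `r*_par`, `v0_bd`, `k*_bd`, `rep*`, `pG_bd`)  and  **CUTGRID** (post BP-E3-CUTGRID: `cmp*`, `lip*`).
No casts: everything which lives at the entry index is a family over ALL indices `j`, of which only `j = j0` is used (convention of `B10.pl`, `B10.tr`).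
-/

set_option autoImplicit false

namespace Claimed.Agent.R285.Asm

open Filter Topology Claims.C0459
open Claimed.Agent.R285.Flow Claimed.Agent.R285.B10

noncomputable section

/-- constants of the raw map, fixed FIRST -/
structure RawK where
  κ : RawC
  L : ℕ
  D0 : ℕ
  /-- the limit `H` of `H_j` -/
  Hq : ℝ
  /-- bound of the block sums of [B] P8.5 (decision D5), as a function of the constant of the balance functionals -/
  C2 : ℝ → ℝ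
  /-- radius of the disc of pure Gaussian entries -/
  d1 : ℝ
  /-- the real source of the mixed diagnostic -/
  w0 : ℝ
  /-- entry-independent phase multipliers -/
  p : ℕ → ℝ
  /-- lower bound of the phase multipliers (NOT tied to the rate `κ.c`, which enters `B10.BalOK`) -/
  cp : ℝ
  hL : 2 ≤ L
  hD : 1 ≤ D0
  hD2 : Even D0
  hH : 0 < Hq
  hd1 : 0 < d1
  hw0 : w0 ≠ 0
  hcp : 0 < cp
  hp : ∀ h, cp ≤ p h ∧ p h ≤ κ.C

/-- the side of the torus stopped at `h` -/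
def RawK.n (K : RawK) (h : ℕ) : ℕ := K.D0 * K.L ^ h

/-- `b_* = 2 log L` -/
def RawK.bs (K : RawK) : ℝ := 2 * Real.log K.L

/-- the data of ONE observation side, in raw coordinates -/
structure RawSys where
  /-- the plane map -/
  F : Raw
  /-- torus remainders at the index `j` behind the stop `h` -/
  T : ℕ → ℕ → Type
  [nT : ∀ j h, NormedAddCommGroup (T j h)]
  [sT : ∀ j h, NormedSpace ℂ (T j h)]
  [cT : ∀ j h, CompleteSpace (T j h)]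
  /-- the torus remainder map, driven by the plane scalars `(t, z)` -/
  Ψ : ∀ j h, (ℂ × ℂ) × T j h → T (j + 1) h
  /-- half-period shift -/
  σT : ∀ j h, T j h →L[ℂ] T j h
  /-- physical entries (functions of the complex inverse temperature); only `j = F.j0` is used -/
  K0 : ∀ j, ℂ → F.A j
  T0 : ∀ j h, ℂ → T j h
  /-- entries of the pure Gaussian interactions `exp (d ∑_B e_B^0 / 2)`; only `j = F.j0` is used -/
  e : Curve F
  eT : ∀ j h, ℂ → T j h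
  /-- terminal read-outs -/
  rV : ∀ h, (ℂ × ℂ) × T h h → ℂ
  rP : ∀ h, (ℂ × ℂ) × T h h → ℂ
  rM : ∀ h, (ℂ × ℂ) × T h h → ℂ
  v0 : ℕ → ℝ
  kV : ℕ → ℝ
  kP : ℕ → ℝ
  kM : ℕ → ℝ
  pG : ℕ → ℝ
  /-- the normalised cutoff observables on the torus `n_h` -/
  cV : ℕ → ℝ → ℝ
  cP : ℕ → ℝ → ℝ
  cM : ℕ → ℝ → ℝ

attribute [instance] RawSys.nT RawSys.sT RawSys.cT

namespace RawSys

variable (S : RawSys)

/-- the torus data in the format of B10 -/
def tor : Tor where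
  T := S.T
  Ψ := S.Ψ
  rV := S.rV
  kV := S.kV
  σT := S.σT

/-- the physical entry as a curve of states: everything sits in the remainder -/
def eK : Curve S.F := fun j b => (0, 0, S.K0 j b)

/-- the raw plane history at the parameter `b`, absolute index `j ≥ j0` -/
def pl (b : ℂ) (j : ℕ) : ℂ × ℂ × S.F.A j := B10.pl S.F S.eK j b

/-- the raw torus remainder behind the stop `h` -/
def tr (b : ℂ) (h j : ℕ) : S.T j h := B10.tr S.F S.tor S.eK S.T0 h j b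

/-- the full torus state -/
def ts (b : ℂ) (h j : ℕ) : (ℂ × ℂ) × S.T j h := (((S.pl b j).1, (S.pl b j).2.1), S.tr b h j)

/-- all plane and torus stages from the entry to the stop `h` lie in the ball of radius `r` -/
def Inside (r : ℝ) (b : ℂ) (h : ℕ) : Prop := ∀ j, S.F.j0 ≤ j → j ≤ h → ‖S.pl b j‖ < r ∧ ‖S.ts b h j‖ < r

/-- the pure Gaussian plane history with coefficient shift `d` -/
def gpl (d : ℂ) (j : ℕ) : ℂ × ℂ × S.F.A j := B10.pl S.F S.e j d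

/-- the pure Gaussian torus remainder -/
def gtr (d : ℂ) (h j : ℕ) : S.T j h := B10.tr S.F S.tor S.e S.eT h j d

/-- the pure Gaussian torus state -/
def gts (d : ℂ) (h j : ℕ) : (ℂ × ℂ) × S.T j h := (((S.gpl d j).1, (S.gpl d j).2.1), S.gtr d h j)

end RawSys

/-- **MAP**: [B] P8.3 + L9.2 in Banach form, copying, parity, pure Gaussian entries, coefficient rates -/
structure RawMapOK (K : RawK) (S : RawSys) : Prop where
  raw : RawOK K.κ S.F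
  j0_pos : 1 ≤ S.F.j0
  Ψ_an : ∀ j h, S.F.j0 ≤ j → j < h → DifferentiableOn ℂ (S.Ψ j h) (Metric.ball 0 K.κ.ρ)
  /-- own contraction, quadratic bound, no linear singleton forcing -/
  Ψ_bd : ∀ j h, S.F.j0 ≤ j → j < h → ∀ X ∈ Metric.ball (0 : (ℂ × ℂ) × S.T j h) K.κ.ρ,
    ‖S.Ψ j h X‖ ≤ K.κ.θ * ‖X.2‖ + K.κ.C * ‖X‖ ^ 2
  σT_inv : ∀ j h q, S.σT j h (S.σT j h q) = q
  σT_iso : ∀ j h q, ‖S.σT j h q‖ = ‖q‖
  Ψ_par : ∀ j h, S.F.j0 ≤ j → j < h → ∀ X ∈ Metric.ball (0 : (ℂ × ℂ) × S.T j h) K.κ.ρ,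
    S.Ψ j h (parX (S.σT j h) X) = S.σT (j + 1) h (S.Ψ j h X)
  /-- [B] P8.5 as BOUNDED BLOCK SUMS (decision D5; = `B8.CoefBlock`), for ANY balance functionals (they are unique: `B10.balance_unique`) -/
  block : ∀ (C1 : ℝ) (nf : NF S.F), BalOK K.κ C1 S.F nf → ∀ j j', S.F.j0 ≤ j → j ≤ j' →
    ‖∑ i ∈ Finset.Ico j j', (nf.bzz i + K.Hq)‖ ≤ K.C2 C1 ∧ ‖∑ i ∈ Finset.Ico j j', (nf.btz i + K.bs)‖ ≤ K.C2 C1
  /-- the pure Gaussian entries ([B] L10.3, [F] (trj:gaussian-curve)) -/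
  pure : PureOK K.κ K.d1 S.F S.tor S.e S.eT
  /-- [F] (trj:pure-response): the exact variance response of the pure tori, as long as the pure history stays in the domain -/
  resp : ∀ h, S.F.j0 ≤ h → ∀ d ∈ Metric.ball (0 : ℂ) K.d1,
    (∀ j, S.F.j0 ≤ j → j ≤ h → ‖S.gpl d j‖ < K.κ.ρ ∧ ‖S.gtr d h j‖ < K.κ.ρ) →
    S.rV h (S.gts d h h) = S.kV h * d / (1 - S.pG h * d)

/-- **ENTRY**: [E] P3.1 (= bulk part of [F] T4.6 on the parameter disk) -/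
structure RawEntryOK (K : RawK) (κe : EntC) (ε : ℝ) (s : ℕ) (S : RawSys) : Prop where
  side : κe.q0 * s = K.L ^ S.F.j0
  K0_an : DifferentiableOn ℂ (S.K0 S.F.j0) (disk κe s)
  K0_bd : ∀ b ∈ disk κe s, ‖S.K0 S.F.j0 b‖ ≤ ε
  /-- real parameters give real activities -/
  K0_re : ∀ b : ℝ, (b : ℂ) ∈ disk κe s → S.F.cj S.F.j0 (S.K0 S.F.j0 b) = S.K0 S.F.j0 b
  T0_an : ∀ h, S.F.j0 ≤ h → DifferentiableOn ℂ (S.T0 S.F.j0 h) (disk κe s)
  T0_bd : ∀ h, S.F.j0 ≤ h → ∀ b ∈ disk κe s, ‖S.T0 S.F.j0 h b‖ ≤ ε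

/-- `h` is a valid physical stop (`Flow.Valid`) -/
def ValidR (K : RawK) (κe : EntC) (s j0 h : ℕ) : Prop :=
  j0 ≤ h ∧ s * κe.P0 ≤ K.n h ∧ κe.C * (K.n h : ℝ) ^ κe.C * Real.exp (-κe.c * (s : ℝ) ^ 2) ≤ 1

/-- the cutoff error (`Flow.cutErr`) -/
def cutR (K : RawK) (κe : EntC) (s h : ℕ) : ℝ := κe.C * (K.n h : ℝ) ^ κe.C * Real.exp (-κe.c * (s : ℝ) ^ 2)

/-- **READOUT + CUTGRID**: [E] P3.3, L3.4, L3.5, [F] (97)-(98), (116)-(119), (130), (trj:mixed-diagnostic), (trj:phase-multiplier) -/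
structure RawReadOK (K : RawK) (κe : EntC) (s : ℕ) (S : RawSys) : Prop where
  rV_an : ∀ h, S.F.j0 ≤ h → DifferentiableOn ℂ (S.rV h) (Metric.ball 0 K.κ.ρ)
  rP_an : ∀ h, S.F.j0 ≤ h → DifferentiableOn ℂ (S.rP h) (Metric.ball 0 K.κ.ρ)
  rM_an : ∀ h, S.F.j0 ≤ h → DifferentiableOn ℂ (S.rM h) (Metric.ball 0 K.κ.ρ)
  rV_bd : ∀ h, S.F.j0 ≤ h → ∀ X ∈ Metric.ball (0 : (ℂ × ℂ) × S.T h h) K.κ.ρ,
    ‖S.rV h X - S.kV h * X.1.1‖ ≤ K.κ.C * (‖X.2‖ + ‖X‖ ^ 2)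
  rP_bd : ∀ h, S.F.j0 ≤ h → ∀ X ∈ Metric.ball (0 : (ℂ × ℂ) × S.T h h) K.κ.ρ,
    ‖S.rP h X - S.kP h * X.1.2‖ ≤ K.κ.C * (‖X.2‖ + ‖X‖ ^ 2)
  rM_bd : ∀ h, S.F.j0 ≤ h → ∀ X ∈ Metric.ball (0 : (ℂ × ℂ) × S.T h h) K.κ.ρ,
    ‖S.rM h X - S.kM h * X.1.2‖ ≤ K.κ.C * (‖X.2‖ + ‖X‖ ^ 2)
  rV_par : ∀ h, S.F.j0 ≤ h → ∀ X ∈ Metric.ball (0 : (ℂ × ℂ) × S.T h h) K.κ.ρ, S.rV h (parX (S.σT h h) X) = S.rV h X
  rP_par : ∀ h, S.F.j0 ≤ h → ∀ X ∈ Metric.ball (0 : (ℂ × ℂ) × S.T h h) K.κ.ρ, S.rP h (parX (S.σT h h) X) = -S.rP h X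
  rM_par : ∀ h, S.F.j0 ≤ h → ∀ X ∈ Metric.ball (0 : (ℂ × ℂ) × S.T h h) K.κ.ρ, S.rM h (parX (S.σT h h) X) = -S.rM h X
  v0_bd : ∀ h, S.F.j0 ≤ h → |S.v0 h - 1 / Real.pi| ≤ K.κ.C * ((s : ℝ) / K.n h + 1 / (K.n h : ℝ) ^ 2)
  kV_bd : ∀ h, S.F.j0 ≤ h → |S.kV h - 1 / Real.pi| ≤ K.κ.C * ((s : ℝ) / K.n h + 1 / (K.n h : ℝ) ^ 2)
  /-- the variance multiplier is bounded below at EVERY stop -/
  kV_lo : ∀ h, S.F.j0 ≤ h → 1 / K.κ.C ≤ S.kV h
  kP_bd : ∀ h, S.F.j0 ≤ h → |S.kP h - K.p h| ≤ K.κ.C * ((s : ℝ) / K.n h) ^ 2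
  kM_bd : ∀ h, ValidR K κe s S.F.j0 h → K.cp ≤ |S.kM h| ∧ |S.kM h| ≤ K.κ.C
  pG_bd : ∀ h, S.F.j0 ≤ h → 0 ≤ S.pG h ∧ S.pG h ≤ 1 ∧ 1 - S.pG h ≤ K.κ.C * ((K.L : ℝ) ^ S.F.j0 / K.n h) ^ 2
  /-- (a) exact representation of the cutoff law: chain of the exact identities (entry, every step, terminal integration) -/
  repV : ∀ (b : ℝ) (h : ℕ), (b : ℂ) ∈ disk κe s → ValidR K κe s S.F.j0 h → S.Inside K.κ.ρ b h →
    (S.cV h b : ℂ) = S.v0 h + S.rV h (S.ts b h h)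
  repP : ∀ (b : ℝ) (h : ℕ), (b : ℂ) ∈ disk κe s → ValidR K κe s S.F.j0 h → S.Inside K.κ.ρ b h →
    (S.cP h b : ℂ) = S.rP h (S.ts b h h)
  repM : ∀ (b : ℝ) (h : ℕ), (b : ℂ) ∈ disk κe s → ValidR K κe s S.F.j0 h → S.Inside K.κ.ρ b h →
    (S.cM h b : ℂ) = S.rM h (S.ts b h h)
  /-- (b) comparison with the physical torus; the constant of the grid error does not depend on the entry parameter -/
  cmpV : ∀ (b : ℝ) (h : ℕ), (b : ℂ) ∈ disk κe s → ValidR K κe s S.F.j0 h →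
    |torVar b (K.n h) - S.cV h b| ≤ K.κ.C * ((s : ℝ) / K.n h) ^ 4 + cutR K κe s h
  cmpP : ∀ (b : ℝ) (h : ℕ), (b : ℂ) ∈ disk κe s → ValidR K κe s S.F.j0 h →
    |torPhase b (K.n h) - S.cP h b| ≤ cutR K κe s h
  cmpM : ∀ (b : ℝ) (h : ℕ), (b : ℂ) ∈ disk κe s → ValidR K κe s S.F.j0 h →
    |torMix b (K.n h) K.w0 - S.cM h b| ≤ K.κ.C * ((s : ℝ) / K.n h) + cutR K κe s h
  /-- (b') comparison of divided differences -/
  lipV : ∀ (b b' : ℝ) (h : ℕ), (b : ℂ) ∈ disk κe s → (b' : ℂ) ∈ disk κe s → ValidR K κe s S.F.j0 h →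
    |(torVar b (K.n h) - S.cV h b) - (torVar b' (K.n h) - S.cV h b')|
      ≤ |b - b'| * (κe.C * (K.n h : ℝ) ^ 2 * ((s : ℝ) / K.n h) ^ 4 + cutR K κe s h)
  lipP : ∀ (b b' : ℝ) (h : ℕ), (b : ℂ) ∈ disk κe s → (b' : ℂ) ∈ disk κe s → ValidR K κe s S.F.j0 h →
    |(torPhase b (K.n h) - S.cP h b) - (torPhase b' (K.n h) - S.cP h b')| ≤ |b - b'| * cutR K κe s h

/-- everything about one side -/
structure RawSysOK (K : RawK) (κe : EntC) (ε : ℝ) (s : ℕ) (S : RawSys) : Prop where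
  map : RawMapOK K S
  entry : RawEntryOK K κe ε s S
  read : RawReadOK K κe s S

end

end Claimed.Agent.R285.Asm
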