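import Claimed.Agent.R285.Asm.TopDefs
import Claimed.Agent.R285.Asm.ReadTop
import Claimed.Agent.R285.Obs.PairTop
import Claimed.Agent.R285.Asm.TowConc
import Claimed.Agent.R285.Asm.EntSp
import Claimed.Agent.R285.Rdo.DomInt
import Claimed.Agent.R285.Cut.LinkTop
import Claimed.Agent.R285.Cut.Main
import Claimed.Agent.R285.TopC

/-!
# ROW 285, ASSEMBLY 5 (owner helper27): the ROOT CONTRACT from the TOP CONTRACTS of the producers

`Asm.raw_system_center` (THE ROOT CONTRACT of the construction side; consumer: `Asm/RawGlue.lean`) is PROVED here from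
  `F4b.initialization` (ENTRY; used TWICE: norm `(p, o)` for the centred sector, norm `(parT p qA, oT)` for the unit sector),
  `Pack.raw_system` (`Map/Sys8.lean`: MAP-PACK + L53 + CHAIN; PROVED), `tower_top` (TOWER, v3: tori and squares, any `o`), `readout_top` (READOUT), `Obs.obs_chain` (OBS)
along the parameter protocol P0-P14 of `Asm/ConcDefs.lean`.  ALL `*_top` contracts are LINKED: `tower_top` (TOWER), `entsp_top` (ENT-SPACE), `cutgrid_top` (CUTGRID), `readout_top` (`Asm/ReadTop.lean`, helper231 + helper16).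
NO `sorry` IN THIS FILE.  ONLY helper27 EDITS THIS FILE.
-/

set_option autoImplicit false

namespace Claimed.Agent.R285.Asm

open scoped BigOperators ENNReal NNReal
open Filter Topology Claims.C0459
open Claimed.Agent.R285.RG Claimed.Agent.R285.B4 Claimed.Agent.R285.B8 Claimed.Agent.R285.Flow Claimed.Agent.R285.B10

noncomputable section

/-! ## 2. The expected top contracts -/

/-- **TOWER** v3 (helper290, helper241; `R285/Map/Tower.lean`), protocol steps P3, P4, P5, P14.  The kernel constants and the threshold `n0` come FIRST (they are shared by the two regulators `o`, `oT`);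
second conclusion: the hypotheses of [F] P4.1 in ALL volumes (tori and free squares), for every `κ' ∈ [κ, κ0]`, with the same cost `cst`. -/
theorem tower_top : ∃ (Ck ck : ℝ) (n0 : ℕ), 0 < ck ∧ ∀ o : ObsPar, ∃ D1 : ℕ, ∃ δ0 > (0 : ℝ), ∀ δ ∈ Set.Ioc 0 δ0, ∃ κ0 > (0 : ℝ), ∀ κ ∈ Set.Ioc 0 κ0,
    ∃ (cst cT : ℝ≥0) (ℓ0 : ℕ),
    (∀ (h0 : ℝ≥0) (A : ℝ) (c0 ℓ D0 : ℕ) (hD : 0 < D0), ℓ0 ≤ ℓ → D1 ≤ D0 →
      ∀ sd P0 j0 : ℕ, 0 < sd → sd ∣ (2 ^ ℓ) ^ j0 → 1 ≤ j0 →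
      (cfg8 (geo8 Ck ck n0 cst) δ κ h0 A c0 ℓ D0 hD).TowerOK (obsReg _ o sd P0) j0 ∧
      (cfg8 (geo8 Ck ck n0 cst) δ κ h0 A c0 ℓ D0 hD).TermOK (obsReg _ o sd P0) j0 cT ∧
      ∀ h j, j0 ≤ j → j ≤ h → F4a.IsObs o ((obsReg (cfg8 (geo8 Ck ck n0 cst) δ κ h0 A c0 ℓ D0 hD).s o sd P0).gs h)
        ((cfg8 (geo8 Ck ck n0 cst) δ κ h0 A c0 ℓ D0 hD).s.lev h j) ((obsReg (cfg8 (geo8 Ck ck n0 cst) δ κ h0 A c0 ℓ D0 hD).s o sd P0).V h j) ∧
        ((obsReg (cfg8 (geo8 Ck ck n0 cst) δ κ h0 A c0 ℓ D0 hD).s o sd P0).V h j).sep ≤ 2 * pp + 8) ∧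
    ∀ κ' ∈ Set.Icc κ κ0, ∀ ℓ ≥ ℓ0, Obs.SqHyp (geo8 Ck ck n0 cst) δ κ' o ℓ D1 := by
  obtain ⟨n0, Ck, ck, hck, H⟩ := Tow.tower_obs
  refine ⟨Ck, ck, n0, hck, fun o => ?_⟩
  obtain ⟨D1, δ0, hδ0, H⟩ := H o
  refine ⟨D1, δ0, hδ0, fun δ hδ => ?_⟩
  obtain ⟨κ0, hκ0, H⟩ := H δ hδ
  refine ⟨κ0, hκ0, fun κ hκ => ?_⟩
  obtain ⟨cst, cT, ℓ0, H, Hsq⟩ := H κ hκ
  refine ⟨cst, cT, max ℓ0 2, fun h0 A c0 ℓ D0 hD hℓ hD1 sd P0 j0 hsd0 hsd hj0 => ?_, fun κ' hκ' ℓ hℓ h0 A ω D0 hD0 G P cl hW hN Vf Vc hf hc =>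
    Hsq κ' hκ' h0 A ω ℓ (le_trans (le_max_left _ _) hℓ) D0 hD0 G P cl hW hN Vf Vc hf hc⟩
  have hT := obsReg_isObsTower (cfg8 (geo8 Ck ck n0 cst) δ κ h0 A c0 ℓ D0 hD).s o P0 (j0 := j0) hsd0 hsd
  have h2 : 2 * 1 < (2 ^ ℓ) ^ j0 := by
    have h3 : 2 ^ 2 ≤ 2 ^ ℓ := Nat.pow_le_pow_right (by norm_num) (le_trans (le_max_right _ _) hℓ)
    have h4 : (2 ^ ℓ) ^ 1 ≤ (2 ^ ℓ) ^ j0 := Nat.pow_le_pow_right (by positivity) hj0
    rw [pow_one] at h4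
    omega
  obtain ⟨a, b⟩ := H 1 h0 A c0 ℓ D0 hD (le_trans (le_max_left _ _) hℓ) hD1 sd j0 hsd0 hsd h2 _ hT
  exact ⟨a, b, fun h j h1 h2 => ⟨hT.obs h j h1 h2, hT.sep h j h1 h2⟩⟩

/-- smaller parameter disk -/
theorem bulkOK_anti {D : F4b.EntryData} {b0 a : ℝ} {p : Par} {o : ObsPar} {r r' ε : ℝ} {𝒱 : F4b.Vol} (h : F4b.BulkOK D b0 a p o r ε 𝒱) (hr : r' ≤ r) :
    F4b.BulkOK D b0 a p o r' ε 𝒱 where
  ok := fun b hb => h.ok b (Metric.ball_subset_ball hr hb)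
  hol := fun X z hz => (h.hol X z hz).mono (Metric.ball_subset_ball hr)
  real := fun b hb => h.real b (lt_of_lt_of_le hb hr)
  even := fun b hb => h.even b (Metric.ball_subset_ball hr hb)
  sym := fun hp b hb => h.sym hp b (Metric.ball_subset_ball hr hb)
  norm := fun b hb => h.norm b (Metric.ball_subset_ball hr hb)
  ident := fun b hb => h.ident b (lt_of_lt_of_le hb hr)

theorem copyOK_anti {D : F4b.EntryData} {b0 : ℝ} {h0 : ℝ≥0} {c0 : ℕ} {r r' : ℝ} {big : ℕ} {𝒱 𝒱' : F4b.Vol} (h : F4b.CopyOK D b0 h0 c0 r big 𝒱 𝒱')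
    (hr : r' ≤ r) : F4b.CopyOK D b0 h0 c0 r' big 𝒱 𝒱' where
  bulk := fun b hb => h.bulk b (Metric.ball_subset_ball hr hb)
  unitK := h.unitK
  unitJ := h.unitJ

/-- **ENT-SPACE** (helper38, `R285/Asm/EntSp.lean`), step P14: no new constant -/
theorem entsp_top (X : Fixed) (hX : X.Ok) (oT : ObsPar) (qA : ℝ) (E : EntK) (hc0 : E.c0E ≤ X.K.c0) (hε : 0 ≤ E.ε) (κr : RawC) (d1 Hq : ℝ) (Cb : ℝ → ℝ)
    (cT : ℝ≥0) (w0 : ℝ) (kR ks j0 : ℕ)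
    (ops : X.K.Ops (X.reg (2 ^ ks) ((2 ^ kR) ^ 5))) (h : SideOK X oT qA E κr d1 Hq Cb cT kR ks j0 ops)
    (K : RawK) (hK : KFits X K) (κe : EntC) (hE : EFits X E kR κe) :
    RawEntryOK K κe E.ε (2 ^ ks) (X.Sy w0 kR ks j0 ops) := by
  have hr : κe.c / (((2 ^ ks : ℕ) : ℝ)) ^ 2 ≤ E.cR / ((2 : ℝ) ^ ks) ^ 2 := by
    push_cast
    exact div_le_div_of_nonneg_right hE.c (by positivity)
  have hD2 : 2 ≤ X.K.s.D0 := by
    obtain ⟨m, hm⟩ := hX.hD2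
    have := X.K.s.hD
    omega
  have hIn : EntSp.EntIn X.K (X.reg (2 ^ ks) ((2 ^ kR) ^ 5)) X.D xyCritical k0 X.o (κe.c / (((2 ^ ks : ℕ) : ℝ)) ^ 2) E.ε (2 ^ ks) j0 E.c0E
      (E.cmk * (2 ^ ks * (2 ^ kR) ^ 5)) :=
    EntSp.entIn_mk X.K _ X.D xyCritical k0 X.o _ E.ε (2 ^ X.kq) (2 ^ kR) (2 ^ ks) j0 E.c0E _ X.hA (le_of_eq hX.hR.symm) hε hc0 hX.hℓ hD2 h.side rfl
      (fun hh _ _ hd => dif_pos hd) (fun hh hj _ => h.obs hh j0 le_rfl hj)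
      (fun 𝒱 h𝒱 => ⟨bulkOK_anti (h.ent.bulk 𝒱 h𝒱) hr, fun 𝒱' h𝒱' => copyOK_anti (h.ent.copy 𝒱 𝒱' h𝒱 h𝒱') hr⟩)
  refine EntSp.ent_space K κe hIn X.hA ops h.sys8.ops _ ?_
  rw [hE.q0, hK.L]
  exact h.side

/-- **CUTGRID** (helper167, `R285/Cut/*`), steps P10, P13, P14.  `Cc` = entry-independent constant of the grid errors; then `Ce, ce, k0` for every entry parameter.
The system enters only through its cutoff observables `cV, cP, cM` (explicit) and its entry index. -/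
theorem cutgrid_top (X : Fixed) (hX : X.Ok) (w0 : ℝ) : ∃ Cc : ℝ, ∀ (E : EntK) (kR : ℕ), 1 ≤ kR → ∃ (Ce ce : ℝ) (k0 : ℕ), 0 < ce ∧
    ∀ (K : RawK) (κe : EntC), KFits X K → EFits X E kR κe → Cc ≤ K.κ.C → K.w0 = w0 → Ce ≤ κe.C → κe.c ≤ ce →
      ∀ (ks j0 : ℕ) (ops : X.K.Ops (X.reg (2 ^ ks) ((2 ^ kR) ^ 5))), k0 ≤ ks → 2 ^ X.kq * 2 ^ kR * 2 ^ ks = X.K.s.L ^ j0 →
        CutOK K κe (2 ^ ks) (X.Sy w0 kR ks j0 ops) := by
  obtain ⟨Cc, Ce, ce, hce, H⟩ := Cut.link_top X.K X.o hX.hω w0 xy_critical_pos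
    (fun V => Cut.cut_main _ _ w0 V (by have := xy_critical_pos; linarith))
  refine ⟨Cc, fun E kR hkR => ⟨Ce, ce, 0, hce, fun K κe hK hE hCc hw hCe hc ks j0 ops _ hside => ?_⟩⟩
  have hP : 4 ≤ κe.P0 := by
    rw [hE.P0]
    calc 4 ≤ (2 ^ 1) ^ 5 := by norm_num
      _ ≤ (2 ^ kR) ^ 5 := Nat.pow_le_pow_left (Nat.pow_le_pow_right (by norm_num) hkR) 5
  obtain ⟨h1, h2, h3, h4, h5⟩ := H K κe hK.L hK.D0 hCc hw hCe hc hP (2 ^ ks) ((2 ^ kR) ^ 5) j0 (by positivity) (Dvd.intro_left _ hside)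
  exact ⟨h1, h2, h3, h4, h5⟩

/-! ## 3. Small leaves (paper-free) -/

theorem k0_pos : 0 < k0 := by unfold k0; positivity

/-- the two observation regulators: `h := 1 - c/2 < hT := 1 - c/4`, common `p2 := (1 + 1/hT)/2`, `p1 := (1 + p2)/2` -/
theorem obsPair_exists (cstar : ℝ) (h0 : 0 < cstar) (h1 : cstar < 1) : ∃ o oT : ObsPar, Obs.ObsPair o oT ∧ 1 - cstar < o.hstar := by
  have hT0 : 0 < 1 - cstar / 4 := by linarith
  have hinv : 1 < 1 / (1 - cstar / 4) := by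
    rw [lt_div_iff₀ hT0]
    linarith
  obtain ⟨p2, hp2⟩ : ∃ p2 : ℝ, p2 = (1 + 1 / (1 - cstar / 4)) / 2 := ⟨_, rfl⟩
  have hp21 : 1 < p2 := by rw [hp2]; linarith
  have hp2lt : p2 < 1 / (1 - cstar / 4) := by rw [hp2]; linarith
  have hTlt : 1 - cstar / 4 < 1 / p2 := by
    rw [lt_div_iff₀ (by linarith)]
    have := mul_lt_mul_of_pos_left hp2lt hT0
    rwa [mul_one_div_cancel hT0.ne'] at this
  refine ⟨⟨k0, 1 - cstar / 2, (1 + p2) / 2, p2, k0_pos, by linarith, by linarith, by linarith, by linarith⟩,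
    ⟨k0, 1 - cstar / 4, (1 + p2) / 2, p2, k0_pos, hT0, hTlt, by linarith, by linarith⟩, ⟨rfl, rfl, ?_, rfl⟩, ?_⟩
  · show 1 - cstar / 2 < 1 - cstar / 4
    linarith
  · show 1 - cstar < 1 - cstar / 2
    linarith

/-- the cost `cst` enters only through `RegStable`, which is monotone in it -/
theorem regStable_mono {G : Geom} {R n0 : ℕ} {cst cst' : ℝ≥0∞} {δ κ : ℝ} {D0 ℓ : ℕ} {P : Pair G D0 ℓ} {Vf : Extra P.g} {Vc : Extra P.g'}
    {Γ : Matrix G.V G.V ℝ} (h : RegStable R n0 cst δ κ P Vf Vc Γ) (hc : cst ≤ cst') : RegStable R n0 cst' δ κ P Vf Vc Γ where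
  main := fun X Y hXY φ => (h.main X Y hXY φ).trans (mul_le_mul_left (pow_le_pow_left₀ zero_le hc _) _)
  small := fun X hX hn φ => (h.small X hX hn φ).trans (mul_le_mul_left (pow_le_pow_left₀ zero_le hc _) _)

theorem sqHyp_mono {Ck ck : ℝ} {n0 : ℕ} {cst cst' : ℝ≥0} {δ κ : ℝ} {o : ObsPar} {ℓ D1 D1' : ℕ} (h : Obs.SqHyp (geo8 Ck ck n0 cst) δ κ o ℓ D1)
    (hc : cst ≤ cst') (hD : D1 ≤ D1') : Obs.SqHyp (geo8 Ck ck n0 cst') δ κ o ℓ D1' :=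
  fun h0 A ω D0 hD0 G P cl hW hN Vf Vc hf hcV =>
    have H := h h0 A ω D0 (hD.trans hD0) G P cl hW hN Vf Vc hf hcV
    { shell := H.shell, reg := regStable_mono H.reg (ENNReal.coe_le_coe.2 hc), adm := H.adm, geo := H.geo }

theorem towerOK_mono {Ck ck : ℝ} {n0 : ℕ} {cst cst' : ℝ≥0} {δ κ : ℝ} {h0 : ℝ≥0} {A : ℝ} {c0 ℓ D0 : ℕ} {hD : 0 < D0}
    {𝓡 : Reg (cfg8 (geo8 Ck ck n0 cst) δ κ h0 A c0 ℓ D0 hD).s} {j0 : ℕ}
    (h : (cfg8 (geo8 Ck ck n0 cst) δ κ h0 A c0 ℓ D0 hD).TowerOK 𝓡 j0) (hc : cst ≤ cst') :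
    (cfg8 (geo8 Ck ck n0 cst') δ κ h0 A c0 ℓ D0 hD).TowerOK 𝓡 j0 where
  step := fun hh j hj0 hj =>
    have H := h.step hh j hj0 hj
    { per := H.per, shell := H.shell, reg := regStable_mono H.reg (ENNReal.coe_le_coe.2 hc), adm := H.adm, sep := H.sep, sepf := H.sepf,
      admf := H.admf, col := H.col, inv := H.inv, diag := H.diag, nest := H.nest, trans := H.trans, square := H.square, half := H.half,
      diam := H.diam }
  cells := h.cells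

/-- `Rdo.TermGeo` for the concrete tower -/
theorem termGeo_conc (K : Cfg) (o : ObsPar) (sd P0 j0 : ℕ) (cT : ℝ≥0) (hsd0 : 0 < sd) (hsd : sd ∣ K.s.L ^ j0) (hD : 2 ≤ K.s.D0) (hR : K.c.R = RR)
    (hterm : K.TermOK (obsReg K.s o sd P0) j0 cT)
    (hobs : ∀ h j, j0 ≤ j → j ≤ h → F4a.IsObs o ((obsReg K.s o sd P0).gs h) (K.s.lev h j) ((obsReg K.s o sd P0).V h j) ∧
      ((obsReg K.s o sd P0).V h j).sep ≤ 2 * pp + 8) : Rdo.TermGeo K (obsReg K.s o sd P0) j0 cT where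
  term := hterm
  sep := fun h j h1 h2 => by
    have h3 := (hobs h j h1 h2).2
    rw [hR]
    simp only [pp, RR, r0] at h3 ⊢
    omega
  cells := fun h hj => by
    have hd : sd ∣ (K.s.T h).M := Dvd.dvd.mul_left (hsd.trans (pow_dvd_pow _ hj)) _
    have e : (obsReg K.s o sd P0).gs h = torusGrid (K.s.T h) sd hd := dif_pos hd
    have h2 : 2 * sd ≤ (K.s.T h).M := by
      have h3 : sd ≤ K.s.L ^ h := Nat.le_of_dvd (pow_pos K.s.L_pos _) (hsd.trans (pow_dvd_pow _ hj))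
      exact Nat.mul_le_mul hD h3
    rw [e]
    exact { pos := hsd0
            mono := (torusGrid_ok _ sd hd hsd0).mono
            size := torusGrid_card _ sd hd hsd0
            two := (Nat.le_div_iff_mul_le hsd0).2 h2 }
  meas := fun h j h1 h2 X =>
    (Rdo.rdo_obs_cont o _ (K.s.lev h j) (Nat.one_le_iff_ne_zero.2 (pow_pos K.s.L_pos _).ne') _ (hobs h j h1 h2).1 X).measurable

theorem crs_mono {C M s : ℝ} (hs : 1 ≤ s) (hCM : C ≤ M) (hM : 0 ≤ M) : C * s ^ C ≤ M * s ^ M := by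
  have hs0 : 0 < s := by linarith
  by_cases hC : 0 ≤ C
  · exact mul_le_mul hCM (Real.rpow_le_rpow_of_exponent_le hs hCM) (Real.rpow_nonneg hs0.le _) hM
  · have hC := lt_of_not_ge hC
    exact (mul_nonpos_of_nonpos_of_nonneg hC.le (Real.rpow_nonneg hs0.le _)).trans (mul_nonneg hM (Real.rpow_nonneg hs0.le _))

theorem eps_le {C C' c c' x : ℝ} (hC : |C| ≤ C') (hc : c' ≤ c) (hx : 0 ≤ x) : C * Real.exp (-c * x) ≤ C' * Real.exp (-c' * x) := by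
  have h2 : Real.exp (-c * x) ≤ Real.exp (-c' * x) := Real.exp_le_exp.2 (by nlinarith)
  calc C * Real.exp (-c * x) ≤ |C| * Real.exp (-c * x) := mul_le_mul_of_nonneg_right (le_abs_self C) (Real.exp_pos _).le
    _ ≤ |C| * Real.exp (-c' * x) := mul_le_mul_of_nonneg_left h2 (abs_nonneg _)
    _ ≤ C' * Real.exp (-c' * x) := mul_le_mul_of_nonneg_right hC (Real.exp_pos _).le

/-- LEAF `L-ASM-KR`: `x⁵ e^{-c x} → 0`, `x = 2^k → ∞`. -/
theorem exists_kR (C c δ : ℝ) (hc : 0 < c) (hδ : 0 < δ) (k1 : ℕ) : ∃ kR ≥ k1,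
    C * Real.exp (-c * 2 ^ kR) * (((2 ^ kR) ^ 5 : ℕ) : ℝ) ≤ δ ∧ 1 / (((2 ^ kR) ^ 5 : ℕ) : ℝ) ≤ δ := by
  have hx : Tendsto (fun k : ℕ => (2 : ℝ) ^ k) atTop atTop := tendsto_pow_atTop_atTop_of_one_lt (by norm_num)
  have h1 : Tendsto (fun x : ℝ => (c * x) ^ 5 * Real.exp (-(c * x))) atTop (𝓝 0) :=
    (Real.tendsto_pow_mul_exp_neg_atTop_nhds_zero 5).comp (tendsto_id.const_mul_atTop hc)
  have h2 : Tendsto (fun k : ℕ => C * (c ^ 5)⁻¹ * ((c * 2 ^ k) ^ 5 * Real.exp (-(c * 2 ^ k)))) atTop (𝓝 0) := by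
    have := (h1.comp hx).const_mul (C * (c ^ 5)⁻¹)
    simpa using this
  have h3 : Tendsto (fun k : ℕ => (((2 : ℝ) ^ k) ^ 5)⁻¹) atTop (𝓝 0) :=
    tendsto_inv_atTop_zero.comp ((tendsto_pow_atTop (n := 5) (by norm_num)).comp hx)
  obtain ⟨k, hk1, hk2, hk3⟩ := ((eventually_ge_atTop k1).and
    ((h2.eventually_le_const hδ).and (h3.eventually_le_const hδ))).exists
  refine ⟨k, hk1, ?_, ?_⟩
  · refine le_trans (le_of_eq ?_) hk2
    push_cast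
    rw [neg_mul]
    field_simp
  · refine le_trans (le_of_eq ?_) hk3
    push_cast
    rw [one_div]

/-- LEAF `L-ASM-LAMSM` -/
theorem exists_lam_sm (C c : ℝ) (hc : 0 < c) : ∃ jl : ℕ, ∀ j0 ≥ jl, C * Real.exp (-c * j0) / (1 - Real.exp (-c)) ≤ 1 / 4 := by
  have h1 : Tendsto (fun j : ℕ => -c * (j : ℝ)) atTop atBot :=
    tendsto_natCast_atTop_atTop.const_mul_atTop_of_neg (by linarith)
  have h2 : Tendsto (fun j : ℕ => C * Real.exp (-c * (j : ℝ)) / (1 - Real.exp (-c))) atTop (𝓝 0) := by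
    have := ((Real.tendsto_exp_atBot.comp h1).const_mul C).div_const (1 - Real.exp (-c))
    simpa using this
  exact eventually_atTop.1 (h2.eventually_le_const (by norm_num))

theorem asm_normLE_mono {𝒱 : F4b.Vol} {p : Par} {o : ObsPar} {K : Act 𝒱.g} {ε ε' : ℝ} (h : F4b.NormLE 𝒱 p o K ε) (hε : ε ≤ ε') :
    F4b.NormLE 𝒱 p o K ε' :=
  fun V hV => (h V hV).trans (ENNReal.ofReal_le_ofReal hε)

/-- LEAF `L-ASM-ENTMONO`: `BulkOK`, `UnitOK` are monotone in the bound of the norm (`NormLE` is). -/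
theorem bulkOK_mono {D : F4b.EntryData} {b0 a : ℝ} {p : Par} {o : ObsPar} {r ε ε' : ℝ} {𝒱 : F4b.Vol} (h : F4b.BulkOK D b0 a p o r ε 𝒱) (hε : ε ≤ ε') :
    F4b.BulkOK D b0 a p o r ε' 𝒱 := by
  exact { h with norm := fun b hb => asm_normLE_mono (h.norm b hb) hε }
theorem unitOK_mono {D : F4b.EntryData} {b0 a : ℝ} {p : Par} {o : ObsPar} {ε ε' εJ εJ' : ℝ} {𝒱 : F4b.Vol} (h : F4b.UnitOK D b0 a p o ε εJ 𝒱) (hε : ε ≤ ε')
    (hJ : εJ ≤ εJ') : F4b.UnitOK D b0 a p o ε' εJ' 𝒱 := by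
  exact { h with normK := fun v hv => asm_normLE_mono (h.normK v hv) hε, normJ := fun v hv => asm_normLE_mono (h.normJ v hv) hJ }

theorem asm_rawOK_mono {κ κ' : RawC} {F : Raw} (h : RawOK κ F) (hρ : κ'.ρ ≤ κ.ρ) (hC : κ.C ≤ κ'.C) (hθ : κ'.θ = κ.θ)
    (hc : κ'.c = κ.c) (hsm : κ'.C * Real.exp (-κ'.c * F.j0) / (1 - Real.exp (-κ'.c)) ≤ 1 / 4) : RawOK κ' F :=
  { an := fun j hj => (h.an j hj).mono (Metric.ball_subset_ball hρ)
    quad := fun j hj Y hY => (h.quad j hj Y (Metric.ball_subset_ball hρ hY)).trans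
      (mul_le_mul_of_nonneg_right hC (by positivity))
    Pt_bd := fun j hj => (h.Pt_bd j hj).trans hC
    Pz_bd := fun j hj => (h.Pz_bd j hj).trans hC
    Cc_bd := fun j hj => by rw [hθ]; exact h.Cc_bd j hj
    lam_bd := fun j hj => by
      rw [hc]
      exact (h.lam_bd j hj).trans (mul_le_mul_of_nonneg_right hC (Real.exp_pos _).le)
    lam_sm := hsm
    lam_re := h.lam_re
    σ_inv := h.σ_inv
    σ_bd := h.σ_bd
    par := fun j hj Y hY => h.par j hj Y (Metric.ball_subset_ball hρ hY)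
    cj_add := h.cj_add
    cj_smul := h.cj_smul
    cj_inv := h.cj_inv
    cj_bd := h.cj_bd
    real := fun j hj Y hY => h.real j hj Y (Metric.ball_subset_ball hρ hY) }

theorem asm_balOK_congr {κ κ' : RawC} (hc : κ'.c = κ.c) {C1 : ℝ} {F : Raw} {nf : NF F} (h : BalOK κ' C1 F nf) : BalOK κ C1 F nf :=
  { h with ell_bd := fun j hj => by rw [← hc]; exact h.ell_bd j hj }

/-- LEAF `L-ASM-MAPMONO`: `RawMapOK` from `Sys8` (constants `κr`) and READOUT, for the larger constant / smaller radius of `K.κ` (same `θ`, same rate `c`, so `BalOK K.κ = BalOK κr`).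
`RawOK`, `TorOK` parts, `PureOK` are monotone; `lam_sm` is the hypothesis `hsm`; `block` = `Sys8.coef` (`K.bs = 2 (ℓ log 2)`);
`PureOK.resp` from `ReadTop.resp`, `kV_hi`, `pG_bd`, `K.d1 ≤ 1/2`: `|1 - pG d| ≥ 1/2`. -/
theorem mapOK_of (X : Fixed) (K : RawK) (κe : EntC) (hK : KFits X K) (κr : RawC) (d1 Hq : ℝ) (Cb : ℝ → ℝ) (w0 : ℝ) (kR ks j0 : ℕ)
    (ops : X.K.Ops (X.reg (2 ^ ks) ((2 ^ kR) ^ 5)))
    (h8 : Pack.Sys8 X.K (X.reg (2 ^ ks) ((2 ^ kR) ^ 5)) j0 X.hA κr d1 Hq Cb ops)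
    (hρ : K.κ.ρ ≤ κr.ρ) (hC : κr.C ≤ K.κ.C) (hθ : K.κ.θ = κr.θ) (hc : K.κ.c = κr.c)
    (hsm : K.κ.C * Real.exp (-K.κ.c * j0) / (1 - Real.exp (-K.κ.c)) ≤ 1 / 4) (hj : 1 ≤ j0)
    (hHq : K.Hq = Hq) (hC2 : K.C2 = Cb) (hd1 : K.d1 ≤ d1) (hd2 : K.d1 ≤ 1 / 2)
    (hR : ReadTop K κe (2 ^ ks) (X.Sy w0 kR ks j0 ops)) (hRd : RawReadOK K κe (2 ^ ks) (X.Sy w0 kR ks j0 ops)) :
    RawMapOK K (X.Sy w0 kR ks j0 ops) := by
  have hC0 : 0 < K.κ.C := lt_of_lt_of_le one_pos K.κ.hC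
  refine
    { raw := asm_rawOK_mono h8.raw hρ hC hθ hc hsm
      j0_pos := hj
      Ψ_an := fun j h h1 h2 => (h8.Ψ_an j h h1 h2).mono (Metric.ball_subset_ball hρ)
      Ψ_bd := fun j h h1 h2 Y hY => ?_
      σT_inv := h8.σT_inv
      σT_iso := h8.σT_iso
      Ψ_par := fun j h h1 h2 Y hY => h8.tor.Ψ_par j h h1 h2 Y (Metric.ball_subset_ball hρ hY)
      block := fun C1 nf hb j j' hj1 hj2 => ?_
      pure :=
        { e_an := h8.pure.e_an.mono (Metric.ball_subset_ball hd1)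
          e_t := fun d hd => h8.pure.e_t d (Metric.ball_subset_ball hd1 hd)
          e_R := fun d hd => (h8.pure.e_R d (Metric.ball_subset_ball hd1 hd)).trans
            (mul_le_mul_of_nonneg_right hC (by positivity))
          e_S := fun d hd => h8.pure.e_S d (Metric.ball_subset_ball hd1 hd)
          e_re := fun d hd => h8.pure.e_re d (Metric.ball_subset_ball hd1 hd)
          eT_an := fun h hh => (h8.pure.eT_an h hh).mono (Metric.ball_subset_ball hd1)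
          eT_bd := fun h hh d hd => (h8.pure.eT_bd h hh d (Metric.ball_subset_ball hd1 hd)).trans
            (mul_le_mul_of_nonneg_right hC (by positivity))
          eT_S := fun h hh d hd => h8.pure.eT_S h hh d (Metric.ball_subset_ball hd1 hd)
          resp := fun h hh d hd hin => ?_ }
      resp := hR.resp }
  · rw [hθ]
    exact (h8.tor.Ψ_bd j h h1 h2 Y (Metric.ball_subset_ball hρ hY)).trans
      (add_le_add_right (mul_le_mul_of_nonneg_right hC (by positivity)) _)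
  · have h1 := h8.coef nf C1 (asm_balOK_congr hc hb) j j' hj1 hj2
    have hbs : K.bs = 2 * (X.K.s.ℓ * Real.log 2) := by
      unfold RawK.bs
      rw [hK.L]
      unfold Sc.L
      push_cast
      rw [Real.log_pow]
    rw [hHq, hC2, hbs]
    exact h1
  · have h1 := hR.resp h hh d hd hin
    show ‖(X.Sy w0 kR ks j0 ops).rV h ((X.Sy w0 kR ks j0 ops).gts d h h)‖ ≤ _
    rw [h1]
    obtain ⟨p0, p1, -⟩ := hRd.pG_bd h hh
    have hk := hR.kV_hi h hh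
    have hdn : ‖d‖ < K.d1 := by simpa using hd
    have hd0 := norm_nonneg d
    have hlow : 1 / 2 ≤ ‖1 - ((X.Sy w0 kR ks j0 ops).pG h : ℂ) * d‖ := by
      have h2 : ‖((X.Sy w0 kR ks j0 ops).pG h : ℂ) * d‖ ≤ 1 / 2 := by
        rw [norm_mul, Complex.norm_real, Real.norm_eq_abs, abs_of_nonneg p0]
        nlinarith
      calc (1 : ℝ) / 2 ≤ ‖(1 : ℂ)‖ - ‖((X.Sy w0 kR ks j0 ops).pG h : ℂ) * d‖ := by
            rw [norm_one]
            linarith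
        _ ≤ _ := norm_sub_norm_le _ _
    rw [norm_div, norm_mul, Complex.norm_real, Real.norm_eq_abs, div_le_iff₀ (by linarith)]
    have h3 : K.κ.C * ‖d‖ * (1 / 2) ≤ K.κ.C * ‖d‖ * ‖1 - ((X.Sy w0 kR ks j0 ops).pG h : ℂ) * d‖ :=
      mul_le_mul_of_nonneg_left hlow (by positivity)
    have h4 : |(X.Sy w0 kR ks j0 ops).kV h| * ‖d‖ ≤ K.κ.C / 4 * ‖d‖ :=
      mul_le_mul_of_nonneg_right (by linarith) hd0
    have h5 : 0 ≤ K.κ.C * ‖d‖ := by positivity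
    linarith

/-- a system without content (for the sides which are not admissible) -/
def junkSys : RawSys where
  F := { j0 := 0, A := fun _ => ℂ, Φ := fun _ _ => 0, Pt := fun _ => 0, Pz := fun _ => 0, Cc := fun _ => 0, lam := fun _ => 1,
         σ := fun _ => ContinuousLinearMap.id ℂ ℂ, cj := fun _ x => x }
  T := fun _ _ => ℂ
  Ψ := fun _ _ _ => 0
  σT := fun _ _ => ContinuousLinearMap.id ℂ ℂ
  K0 := fun _ _ => (0 : ℂ)
  T0 := fun _ _ _ => 0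
  e := fun _ _ => 0
  eT := fun _ _ _ => 0
  rV := fun _ _ => 0
  rP := fun _ _ => 0
  rM := fun _ _ => 0
  v0 := fun _ => 0
  kV := fun _ => 0
  kP := fun _ => 0
  kM := fun _ => 0
  pG := fun _ => 0
  cV := fun _ _ => 0
  cP := fun _ _ => 0
  cM := fun _ _ => 0

/-! ## 4. The assembly -/

/-- **THE ROOT CONTRACT**, proved along the protocol P0-P14 -/
theorem raw_system_center : ∃ (K : RawK) (κo : F6.ObsC), ∀ δ : ℝ, 0 < δ → ∃ (ε : ℝ) (κe : EntC) (S : ℕ → RawSys),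
    0 < ε ∧ ε * κe.P0 ≤ δ ∧ 1 / (κe.P0 : ℝ) ≤ δ ∧ κe.C ≥ K.κ.C ∧ (∃ j1, κe.q0 ∣ K.L ^ j1) ∧
    ∀ s, κe.s0 ≤ s → (∃ j : ℕ, κe.q0 * s = K.L ^ j) → RawSysOK K κe ε s (S s) ∧ F6.RawCenterOK K κo κe ε s (S s) := by
  -- P0
  obtain ⟨D1Rd, hread⟩ := readout_top
  -- P1
  obtain ⟨cstar, δ0E, kq, cmk, c0E, D, hcs0, hcs1, hδ0E, hent⟩ :=
    F4b.initialization xyCritical k0 xy_critical_pos k0_pos aLim_critical
  -- P2
  obtain ⟨o, oT, hoo, hoh⟩ := obsPair_exists cstar hcs0 hcs1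
  have hohT : 1 - cstar < oT.hstar := lt_trans hoh hoo.h
  -- P3
  obtain ⟨Ck, ck, n0, hck, htow⟩ := tower_top
  obtain ⟨D1R, δ0R, hδ0R, htowo⟩ := htow o
  obtain ⟨D1T, δ0T, hδ0T, htowT⟩ := htow oT
  obtain ⟨δ0O, hδ0O, hobs⟩ := Obs.obs_chain o oT hoo
  obtain ⟨δ, hδ, hδE, hδO, hδR, hδT⟩ : ∃ δ > (0 : ℝ), δ ≤ δ0E ∧ δ ≤ δ0O ∧ δ ≤ δ0R ∧ δ ≤ δ0T :=
    ⟨min (min δ0E δ0O) (min δ0R δ0T), lt_min (lt_min hδ0E hδ0O) (lt_min hδ0R hδ0T), (min_le_left _ _).trans (min_le_left _ _),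
      (min_le_left _ _).trans (min_le_right _ _), (min_le_right _ _).trans (min_le_left _ _), (min_le_right _ _).trans (min_le_right _ _)⟩
  -- P4
  obtain ⟨κ0E, hκ0E, hento⟩ := hent o hoo.a hoh δ ⟨hδ, hδE⟩
  obtain ⟨κ0ET, hκ0ET, hentT⟩ := hent oT hoo.aT hohT δ ⟨hδ, hδE⟩
  obtain ⟨κ0R, hκ0R, htowo⟩ := htowo δ ⟨hδ, hδR⟩
  obtain ⟨κ0T, hκ0T, htowT⟩ := htowT δ ⟨hδ, hδT⟩
  obtain ⟨κ0O, hκ0O, hobs⟩ := hobs δ ⟨hδ, hδO⟩
  obtain ⟨κ, hκ, hκE, hκET, hκR, hκT, hκO⟩ : ∃ κ > (0 : ℝ), κ ≤ κ0E ∧ 2 * κ ≤ κ0ET ∧ κ ≤ κ0R ∧ 2 * κ ≤ κ0T ∧ κ ≤ κ0O := by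
    refine ⟨min (min κ0E (κ0ET / 2)) (min (min κ0R (κ0T / 2)) κ0O),
      lt_min (lt_min hκ0E (by linarith)) (lt_min (lt_min hκ0R (by linarith)) hκ0O), (min_le_left _ _).trans (min_le_left _ _), ?_,
      (min_le_right _ _).trans ((min_le_left _ _).trans (min_le_left _ _)), ?_, (min_le_right _ _).trans (min_le_right _ _)⟩
    · have : min (min κ0E (κ0ET / 2)) (min (min κ0R (κ0T / 2)) κ0O) ≤ κ0ET / 2 := (min_le_left _ _).trans (min_le_right _ _)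
      linarith
    · have : min (min κ0E (κ0ET / 2)) (min (min κ0R (κ0T / 2)) κ0O) ≤ κ0T / 2 :=
        (min_le_right _ _).trans ((min_le_left _ _).trans (min_le_right _ _))
      linarith
  -- P5
  obtain ⟨cstR, cT, ℓ0R, htowo, hsqo⟩ := htowo κ ⟨hκ, hκR⟩
  obtain ⟨cstT, -, ℓ0T, -, hsqT⟩ := htowT κ ⟨hκ, by linarith⟩
  obtain ⟨cst, hcstR, hcstT⟩ : ∃ cst : ℝ≥0, cstR ≤ cst ∧ cstT ≤ cst := ⟨max cstR cstT, le_max_left _ _, le_max_right _ _⟩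
  obtain ⟨c0, hc0E, hc0ρ, hc0R⟩ : ∃ c0 : ℕ, c0E ≤ c0 ∧ 2 * ((geo8 Ck ck n0 cst).ρ + 4) ≤ c0 ∧ (geo8 Ck ck n0 cst).R ≤ c0 :=
    ⟨max c0E (max (2 * ((geo8 Ck ck n0 cst).ρ + 4)) (geo8 Ck ck n0 cst).R), le_max_left _ _, (le_max_left _ _).trans (le_max_right _ _),
      (le_max_right _ _).trans (le_max_right _ _)⟩
  obtain ⟨h0min, qA, hqA, hobs⟩ := hobs κ ⟨hκ, hκO⟩ (geo8 Ck ck n0 cst) c0 ⟨geo8_ok Ck ck n0 cst hck, rfl, rfl, rfl, rfl, rfl⟩ hc0ρ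
  -- P6
  obtain ⟨C1, -, hmap⟩ := Pack.raw_system (geo8 Ck ck n0 cst) (geo8_ok Ck ck n0 cst hck) cT c0 hc0ρ hc0R (by simp [geo8, RR, r0, pp])
  obtain ⟨h0, hh0C, hh0m, hh01⟩ : ∃ h0 : ℝ≥0, C1 ≤ h0 ∧ h0min ≤ h0 ∧ 0 < h0 :=
    ⟨max (max C1 h0min) 1, (le_max_left _ _).trans (le_max_left _ _), (le_max_right _ _).trans (le_max_left _ _),
      lt_of_lt_of_le one_pos (le_max_right _ _)⟩
  -- P7
  obtain ⟨ℓ0O, hobs⟩ := hobs h0 hh0m
  obtain ⟨ℓ0M, hmap⟩ := hmap δ κ h0 hδ hκ hh0C (1 / 2) (by norm_num) (by norm_num)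
  obtain ⟨ℓ, hℓR, hℓT, hℓM, hℓO, hℓ1⟩ : ∃ ℓ : ℕ, ℓ0R ≤ ℓ ∧ ℓ0T ≤ ℓ ∧ ℓ0M ≤ ℓ ∧ ℓ0O ≤ ℓ ∧ 1 ≤ ℓ :=
    ⟨max (max ℓ0R ℓ0T) (max (max ℓ0M ℓ0O) 1), (le_max_left _ _).trans (le_max_left _ _), (le_max_right _ _).trans (le_max_left _ _),
      (le_max_left _ _).trans ((le_max_left _ _).trans (le_max_right _ _)), (le_max_right _ _).trans ((le_max_left _ _).trans (le_max_right _ _)),
      (le_max_right _ _).trans (le_max_right _ _)⟩
  -- P8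
  obtain ⟨A0M, D1M, hA0M, hmap⟩ := hmap ℓ hℓM
  obtain ⟨A0O, hA0O, hobs⟩ := hobs ℓ hℓO
  obtain ⟨A, hAM, hAO⟩ : ∃ A : ℝ, A0M ≤ A ∧ A0O ≤ A := ⟨max A0M A0O, le_max_left _ _, le_max_right _ _⟩
  have hAq : qA ≤ A := hA0O.trans hAO
  have hA1 : 1 ≤ A := hqA.trans hAq
  have hA : 0 < A := lt_of_lt_of_le one_pos hA1
  have hAq1 : 1 ≤ A / qA := by
    rw [le_div_iff₀ (lt_of_lt_of_le one_pos hqA)]
    linarith
  obtain ⟨D0, hD, hD0R, hD0T, hD0M, hD0Rd, hD0e⟩ : ∃ D0 : ℕ, 0 < D0 ∧ D1R ≤ D0 ∧ D1T ≤ D0 ∧ D1M ≤ D0 ∧ D1Rd ≤ D0 ∧ Even D0 := by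
    refine ⟨2 * (max (max D1R D1T) (max D1M D1Rd) + 1), by positivity, ?_, ?_, ?_, ?_, even_two_mul _⟩
    · have := (le_max_left D1R D1T).trans (le_max_left _ (max D1M D1Rd)); omega
    · have := (le_max_right D1R D1T).trans (le_max_left _ (max D1M D1Rd)); omega
    · have := (le_max_left D1M D1Rd).trans (le_max_right (max D1R D1T) _); omega
    · have := (le_max_right D1M D1Rd).trans (le_max_right (max D1R D1T) _); omega
  have hD02 : 2 ≤ D0 := by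
    obtain ⟨m, hm⟩ := hD0e
    omega
  -- P9
  obtain ⟨κr, jmin, d1, Hq, Cb, hθ, hd1, hHq, hmap⟩ := hmap A hAM D0 hD hD0M
  have hsq1 : Obs.SqHyp (geo8 Ck ck n0 cst) δ κ o ℓ (max D1R D1T) :=
    sqHyp_mono (hsqo κ ⟨le_rfl, hκR⟩ ℓ hℓR) hcstR (le_max_left _ _)
  have hsq2 : Obs.SqHyp (geo8 Ck ck n0 cst) δ (2 * κ) oT ℓ (max D1R D1T) :=
    sqHyp_mono (hsqT (2 * κ) ⟨by linarith, hκT⟩ ℓ hℓT) hcstT (le_max_right _ _)
  obtain ⟨X, hXdef⟩ : ∃ X : Fixed, X = ⟨cfg8 (geo8 Ck ck n0 cst) δ κ h0 A c0 ℓ D0 hD, hA, o, D, kq⟩ := ⟨_, rfl⟩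
  have hX : X.Ok := by
    subst hXdef
    exact ⟨geo8_ok Ck ck n0 cst hck, rfl, rfl, rfl, rfl, rfl, rfl, hδ, hκ, hA1, hoo.a, hℓ1, hD0e, hh01, hc0R⟩
  have hc0 : c0E ≤ X.K.c0 := by subst hXdef; exact hc0E
  -- P10
  obtain ⟨κo, hobs⟩ := hobs A hAO D0 hD (max D1R D1T) hD02 hsq1 hsq2 κr
  obtain ⟨ρr, Cr, cr, w0, jr, hρr, hρr', hcr, hw0, hpH, hread⟩ := hread X hX (by subst hXdef; exact hD0Rd) oT qA κr d1 Hq Cb cT hd1
  obtain ⟨Cc, hcut⟩ := cutgrid_top X hX w0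
  have hcrCr : cr ≤ Cr := le_trans (hpH jr le_rfl).1 (hpH jr le_rfl).2
  obtain ⟨K, hKκρ, hKκC, hKκθ, hKκc, hKL, hKD, hKH, hKC2, hKd1, hKw0, hKp, hKcp⟩ : ∃ K : RawK, K.κ.ρ = ρr ∧ K.κ.C = max (max κr.C Cr) Cc ∧
      K.κ.θ = κr.θ ∧ K.κ.c = κr.c ∧ K.L = X.K.s.L ∧ K.D0 = X.K.s.D0 ∧ K.Hq = Hq ∧ K.C2 = Cb ∧ K.d1 = min d1 (1 / 2) ∧ K.w0 = w0 ∧
      (∀ h, jr ≤ h → K.p h = Rdo.pH X.K h) ∧ K.cp = cr := by
    refine ⟨{ κ := ⟨ρr, κr.θ, max (max κr.C Cr) Cc, κr.c, hρr, κr.hθ0, κr.hθ, le_trans κr.hC (le_trans (le_max_left _ _) (le_max_left _ _)), κr.hc⟩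
              L := X.K.s.L
              D0 := X.K.s.D0
              Hq := Hq
              C2 := Cb
              d1 := min d1 (1 / 2)
              w0 := w0
              p := fun h => if jr ≤ h then Rdo.pH X.K h else cr
              cp := cr
              hL := ?_
              hD := X.K.s.hD
              hD2 := hX.hD2
              hH := hHq
              hd1 := lt_min hd1 (by norm_num)
              hw0 := hw0
              hcp := hcr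
              hp := ?_ }, rfl, rfl, rfl, rfl, rfl, rfl, rfl, rfl, rfl, rfl, fun h hh => if_pos hh, rfl⟩
    · have h1 := hX.hℓ
      calc 2 = 2 ^ 1 := (pow_one 2).symm
        _ ≤ 2 ^ X.K.s.ℓ := Nat.pow_le_pow_right (by norm_num) h1
    · intro h
      have hCr : Cr ≤ max (max κr.C Cr) Cc := le_trans (le_max_right _ _) (le_max_left _ _)
      by_cases hh : jr ≤ h
      · simp only [if_pos hh]
        exact ⟨(hpH h hh).1, le_trans (hpH h hh).2 hCr⟩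
      · simp only [if_neg hh]
        exact ⟨le_rfl, le_trans hcrCr hCr⟩
  have hKF : KFits X K := ⟨hKL, hKD⟩
  obtain ⟨jl, hjl⟩ := exists_lam_sm K.κ.C K.κ.c K.κ.hc
  -- P11
  obtain ⟨CE, cE, k1, hcE, hento⟩ := hento κ ⟨hκ, hκE⟩ h0 A hA1
  obtain ⟨CET, cET, k1T, hcET, hentT⟩ := hentT (2 * κ) ⟨by positivity, hκET⟩ h0 (A / qA) hAq1
  refine ⟨K, κo, fun δ' hδ' => ?_⟩
  -- P12
  obtain ⟨kR, hkR', hR1, hR2⟩ := exists_kR (|CE| + |CET| + 1) (min cE cET) (min δ' κo.c) (lt_min hcE hcET) (lt_min hδ' κo.hc) (max (max k1 k1T) 1)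
  have hkR : kR ≥ k1 := le_trans ((le_max_left _ _).trans (le_max_left _ _)) hkR'
  have hkRT : kR ≥ k1T := le_trans ((le_max_right _ _).trans (le_max_left _ _)) hkR'
  have hkR1 : 1 ≤ kR := le_trans (le_max_right _ _) hkR'
  -- P13
  obtain ⟨CR, cR, k0E, hcR, hento⟩ := hento kR hkR
  obtain ⟨CRT, cRT, k0ET, _, hentT⟩ := hentT kR hkRT
  obtain ⟨E, hEdef⟩ : ∃ E : EntK, E = ⟨c0E, cmk, (|CE| + |CET| + 1) * Real.exp (-(min cE cET) * 2 ^ kR), max (max CR CRT) 0, cR⟩ := ⟨_, rfl⟩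
  have hEc0 : E.c0E ≤ X.K.c0 := by subst hEdef; exact hc0
  have hEc0' : E.c0E ≤ c0 := by subst hEdef; exact hc0E
  have hεpos : 0 < E.ε := by subst hEdef; positivity
  have hP1 : (1 : ℝ) ≤ (((2 ^ kR) ^ 5 : ℕ) : ℝ) := by exact_mod_cast Nat.one_le_iff_ne_zero.2 (by positivity)
  have hεP : E.ε * (((2 ^ kR) ^ 5 : ℕ) : ℝ) ≤ min δ' κo.c := by subst hEdef; exact hR1
  have hεo : E.ε ≤ κo.c := by
    have h1 : E.ε ≤ E.ε * (((2 ^ kR) ^ 5 : ℕ) : ℝ) := le_mul_of_one_le_right hεpos.le hP1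
    exact h1.trans (hεP.trans (min_le_right _ _))
  obtain ⟨k0r, hread⟩ := hread E kR hEc0 hkR1
  obtain ⟨CeC, ceC, k0c, hceC, hcut⟩ := hcut E kR hkR1
  obtain ⟨CeO, ceO, k0o, hceO, hobs⟩ := hobs E kR hEc0'
  obtain ⟨κe, hq0, hP0, hκec, hκeC, hs0⟩ : ∃ κe : EntC, κe.q0 = 2 ^ kq * 2 ^ kR ∧ κe.P0 = (2 ^ kR) ^ 5 ∧ κe.c = min cR (min ceC ceO) ∧
      κe.C = max (max (max CeC CeO) K.κ.C) 1 ∧
      κe.s0 = max (2 ^ (max (max (max k0E k0ET) k0r) (max k0c k0o))) (K.L ^ (max (max jmin jr) (max jl 1))) :=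
    ⟨⟨2 ^ kq * 2 ^ kR, (2 ^ kR) ^ 5, min cR (min ceC ceO), max (max (max CeC CeO) K.κ.C) 1,
      max (2 ^ (max (max (max k0E k0ET) k0r) (max k0c k0o))) (K.L ^ (max (max jmin jr) (max jl 1))),
      Nat.succ_le_of_lt (by positivity), Nat.succ_le_of_lt (by positivity), lt_min hcR (lt_min hceC hceO), le_max_right _ _⟩,
      rfl, rfl, rfl, rfl, rfl⟩
  have hEF : EFits X E kR κe := by
    subst hEdef hXdef
    exact ⟨hq0, hP0, by rw [hκec]; exact min_le_left _ _⟩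
  -- the systems
  have hex : ∀ s, ∃ S : RawSys, κe.s0 ≤ s → (∃ j : ℕ, κe.q0 * s = K.L ^ j) →
      RawSysOK K κe E.ε s S ∧ F6.RawCenterOK K κo κe E.ε s S := by
    intro s
    by_cases hs : κe.s0 ≤ s ∧ ∃ j : ℕ, κe.q0 * s = K.L ^ j
    swap
    · exact ⟨junkSys, fun h1 h2 => absurd ⟨h1, h2⟩ hs⟩
    obtain ⟨hs0', j0, hj0⟩ := hs
    -- `s = 2^ks`
    have hL2 : K.L = 2 ^ X.K.s.ℓ := hKL
    have hdvd : s ∣ 2 ^ (X.K.s.ℓ * j0) := by
      rw [pow_mul, ← hL2, ← hj0]; exact Dvd.intro_left _ rfl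
    obtain ⟨ks, -, rfl⟩ := (Nat.dvd_prime_pow Nat.prime_two).1 hdvd
    have hks : max (max (max k0E k0ET) k0r) (max k0c k0o) ≤ ks := by
      have h1 : 2 ^ (max (max (max k0E k0ET) k0r) (max k0c k0o)) ≤ 2 ^ ks := le_trans (le_max_left _ _) (hs0 ▸ hs0')
      exact (Nat.pow_le_pow_iff_right (by norm_num)).1 h1
    have hjj : max (max jmin jr) (max jl 1) ≤ j0 := by
      have h1 : K.L ^ (max (max jmin jr) (max jl 1)) ≤ 2 ^ ks := le_trans (le_max_right _ _) (hs0 ▸ hs0')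
      have h2 : 2 ^ ks ≤ K.L ^ j0 := by
        rw [← hj0]; exact Nat.le_mul_of_pos_left _ (lt_of_lt_of_le one_pos κe.hq)
      exact (Nat.pow_le_pow_iff_right (lt_of_lt_of_le one_lt_two K.hL)).1 (le_trans h1 h2)
    have hside : 2 ^ X.kq * 2 ^ kR * 2 ^ ks = X.K.s.L ^ j0 := by
      rw [← hKL, ← hj0, hq0]; subst hXdef; rfl
    have hj1 : 1 ≤ j0 := le_trans (le_trans (le_max_right _ _) (le_max_right _ _)) hjj
    -- TOWER-4, MAP-5, ENTRY-5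
    have hksE : k0E ≤ ks := le_trans (le_trans (le_trans (le_max_left _ _) (le_max_left _ _)) (le_max_left _ _)) hks
    have hksET : k0ET ≤ ks := le_trans (le_trans (le_trans (le_max_right _ _) (le_max_left _ _)) (le_max_left _ _)) hks
    have hksr : k0r ≤ ks := le_trans (le_trans (le_max_right _ _) (le_max_left _ _)) hks
    have hksc : k0c ≤ ks := le_trans (le_trans (le_max_left _ _) (le_max_right _ _)) hks
    have hkso : k0o ≤ ks := le_trans (le_trans (le_max_right _ _) (le_max_right _ _)) hks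
    have hjmin : jmin ≤ j0 := le_trans (le_trans (le_max_left _ _) (le_max_left _ _)) hjj
    have hjr : jr ≤ j0 := le_trans (le_trans (le_max_right _ _) (le_max_left _ _)) hjj
    have hjl' : jl ≤ j0 := le_trans (le_trans (le_max_left _ _) (le_max_right _ _)) hjj
    have hsd : 2 ^ ks ∣ (2 ^ X.K.s.ℓ) ^ j0 := by rw [← hL2, ← hj0]; exact Dvd.intro_left _ rfl
    have hx0 : (0 : ℝ) ≤ 2 ^ kR := by positivity
    have hεle : CE * Real.exp (-cE * 2 ^ kR) ≤ (|CE| + |CET| + 1) * Real.exp (-(min cE cET) * 2 ^ kR) :=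
      eps_le (by have := abs_nonneg CET; linarith) (min_le_left _ _) hx0
    have hεleT : CET * Real.exp (-cET * 2 ^ kR) ≤ (|CE| + |CET| + 1) * Real.exp (-(min cE cET) * 2 ^ kR) :=
      eps_le (by have := abs_nonneg CE; linarith) (min_le_right _ _) hx0
    have hs1 : (1 : ℝ) ≤ (2 : ℝ) ^ ks := one_le_pow₀ (by norm_num)
    obtain ⟨ops, hSide⟩ : ∃ ops, SideOK X oT qA E κr d1 Hq Cb cT kR ks j0 ops := by
      subst hXdef hEdef
      obtain ⟨ht1, ht2, ht3⟩ := htowo h0 A c0 ℓ D0 hD hℓR hD0R (2 ^ ks) ((2 ^ kR) ^ 5) j0 (by positivity) hsd hj1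
      have ht1' := towerOK_mono (cst' := cst) ht1 hcstR
      have hgeo : Rdo.TermGeo (cfg8 (geo8 Ck ck n0 cst) δ κ h0 A c0 ℓ D0 hD) (obsReg _ o (2 ^ ks) ((2 ^ kR) ^ 5)) j0 cT :=
        termGeo_conc (cfg8 (geo8 Ck ck n0 cst) δ κ h0 A c0 ℓ D0 hD) o (2 ^ ks) ((2 ^ kR) ^ 5) j0 cT (by positivity) hsd hD02 rfl ht2 ht3
      obtain ⟨ops, h8⟩ := hmap (obsReg _ o (2 ^ ks) ((2 ^ kR) ^ 5)) j0 hjmin ht1' hgeo hA
      obtain ⟨hc1, hc2⟩ := hento ks hksE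
      obtain ⟨-, hc2T⟩ := hentT ks hksET
      exact ⟨ops, ⟨hside, ht1', hgeo, fun h j h1 h2 => (ht3 h j h1 h2).1, fun h j h1 h2 => (ht3 h j h1 h2).2, h8,
        ⟨hcR, ⟨hc1.1.trans ((le_max_left _ _).trans (le_max_left _ _)), hc1.2⟩, fun 𝒱 h𝒱 => bulkOK_mono (hc2 𝒱 h𝒱).1 hεle,
          fun 𝒱 h𝒱 hf hb => unitOK_mono ((hc2T 𝒱 h𝒱).2.1 hf hb) hεleT
            (crs_mono hs1 ((le_max_right _ _).trans (le_max_left _ _)) (le_max_right _ _)),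
          fun 𝒱 𝒱' h h' => (hc2 𝒱 h).2.2 𝒱' h'⟩⟩⟩
    have hRT := hread K κe hKF hEF (le_of_eq hKκρ) (by rw [hKκC]; exact le_trans (le_max_right _ _) (le_max_left _ _)) (le_of_eq hKcp) hKw0
      (by rw [hKd1]; exact min_le_left _ _) hKp ks j0 ops hksr hjr hSide
    have hCut := hcut K κe hKF hEF (by rw [hKκC]; exact le_max_right _ _) hKw0
      (by rw [hκeC]; exact le_trans (le_max_left _ _) (le_trans (le_max_left _ _) (le_max_left _ _)))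
      (by rw [hκec]; exact le_trans (min_le_right _ _) (min_le_left _ _)) ks j0 ops hksc hside
    have hRd := hRT.read hCut
    have hMap := mapOK_of X K κe hKF κr d1 Hq Cb w0 kR ks j0 ops hSide.sys8 (by rw [hKκρ]; exact hρr')
      (by rw [hKκC]; exact le_trans (le_max_left _ _) (le_max_left _ _)) hKκθ hKκc (hjl j0 hjl') hj1 hKH hKC2
      (by rw [hKd1]; exact min_le_left _ _) (by rw [hKd1]; exact min_le_right _ _) hRT hRd
    have hEnt := entsp_top X hX oT qA E hEc0 hεpos.le κr d1 Hq Cb cT w0 kR ks j0 ops hSide K hKF κe hEF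
    have hObs := hobs X (by subst hXdef; rfl) (by subst hXdef; rfl) K κe (by rw [hKL]; subst hXdef; rfl) (by rw [hq0]; subst hXdef; rfl) hP0
      (by rw [hκeC]; exact le_trans (le_max_right _ _) (le_trans (le_max_left _ _) (le_max_left _ _)))
      (by rw [hκec]; exact le_trans (min_le_right _ _) (min_le_right _ _)) ks j0 ops
      (rdOf X.K (X.reg (2 ^ ks) ((2 ^ kR) ^ 5)) w0 j0) hkso
      ⟨hSide.side, hSide.tower, hSide.obs, ⟨hSide.sys8.ops, hSide.sys8.raw, hSide.sys8.tor.Ψ_bd, hSide.sys8.copy⟩, hSide.ent⟩ hεpos.le hεo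
    exact ⟨X.Sy w0 kR ks j0 ops, fun _ _ => ⟨⟨hMap, hEnt, hRd⟩, hObs⟩⟩
  choose S hS using hex
  refine ⟨E.ε, κe, S, hεpos, ?_, ?_, ?_, ⟨kq + kR, ?_⟩, hS⟩
  · rw [hP0]; exact hεP.trans (min_le_left _ _)
  · rw [hP0]; exact hR2.trans (min_le_left _ _)
  · rw [hκeC]; exact le_trans (le_max_right _ _) (le_max_left _ _)
  · rw [hq0, ← pow_add, hKL]
    exact pow_dvd_pow_of_dvd (dvd_pow_self 2 (by have := hX.hℓ; omega)) _

end

end Claimed.Agent.R285.Asm
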