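import Claimed.Agent.R285.Asm.Concrete
import Claimed.Agent.R285.Flow.FChart
import Claimed.Agent.R285.Flow.Gauss

/-!
# ROW 285, ASSEMBLY 3 (owner helper27): `Flow.rg_system` (+ centre observable) from `Asm.raw_system_center` and the abstract bridge B10

PAPER-FREE.  Everything is abstract analysis in Banach spaces.  Plan:
* `GlueC K` bundles the constants which B10 produces from the raw constants `K` (Gaussian curve `gauss_curve`, chart `fchart_exists`), with their properties;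
* `mapC K c : Flow.MapC` and `toHist K S X : Flow.Hist` are EXPLICIT (`X : B10.FChart S.F`);
* the leaves `glue_*` check the fields of `Flow.SysOK` one group at a time;
* `rg_system_center`, `rg_system'` (same statement as `Flow.rg_system`) are PROVED from the leaves.
-/

set_option autoImplicit false

namespace Claimed.Agent.R285.Asm

open Filter Topology Claims.C0459
open Claimed.Agent.R285.Flow Claimed.Agent.R285.B10

noncomputable section

/-! ## 0. The recursions `B10.pl`, `B10.tr` -/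

theorem pl_le (F : Raw) (e : Curve F) {j : ℕ} (hj : j ≤ F.j0) : B10.pl F e j = e j := by
  cases j with
  | zero => rfl
  | succ j => simp [B10.pl, hj]

theorem pl_succ (F : Raw) (e : Curve F) {j : ℕ} (hj : F.j0 ≤ j) (d : ℂ) :
    B10.pl F e (j + 1) d = F.Φ j (B10.pl F e j d) := by
  have : ¬ (j + 1 ≤ F.j0) := by omega
  simp [B10.pl, this]

theorem tr_le (F : Raw) (𝒯 : Tor) (e : Curve F) (eT : ∀ j h, ℂ → 𝒯.T j h) (h : ℕ) {j : ℕ} (hj : j ≤ F.j0) :
    B10.tr F 𝒯 e eT h j = eT j h := by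
  cases j with
  | zero => rfl
  | succ j => simp [B10.tr, hj]

theorem tr_succ (F : Raw) (𝒯 : Tor) (e : Curve F) (eT : ∀ j h, ℂ → 𝒯.T j h) (h : ℕ) {j : ℕ} (hj : F.j0 ≤ j) (d : ℂ) :
    B10.tr F 𝒯 e eT h (j + 1) d
      = 𝒯.Ψ j h (((B10.pl F e j d).1, (B10.pl F e j d).2.1), B10.tr F 𝒯 e eT h j d) := by
  have : ¬ (j + 1 ≤ F.j0) := by omega
  simp [B10.tr, this]

/-! ## 1. Constants -/

theorem RawK.bs_pos (K : RawK) : 0 < K.bs := by
  have : (1 : ℝ) < K.L := by exact_mod_cast (by have := K.hL; omega : 1 < K.L)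
  have := Real.log_pos this
  unfold RawK.bs; linarith

/-- `TorOK` of a raw system -/
theorem torOK (K : RawK) (κe : EntC) (s : ℕ) (S : RawSys) (hM : RawMapOK K S) (hR : RawReadOK K κe s S) :
    TorOK K.κ S.F.j0 S.tor :=
  ⟨hM.Ψ_an, hM.Ψ_par, hM.Ψ_bd, hR.rV_bd, hR.kV_lo⟩

/-- the constants which the bridge B10 produces from `K`, with their properties -/
structure GlueC (K : RawK) where
  d0 : ℝ
  Kg : ℝ
  f : FChartC
  hd0 : 0 < d0
  hd01 : d0 ≤ K.d1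
  gauss : ∀ (F : Raw) (𝒯 : Tor) (e : Curve F) (eT : ∀ j h, ℂ → 𝒯.T j h),
    RawOK K.κ F → TorOK K.κ F.j0 𝒯 → PureOK K.κ K.d1 F 𝒯 e eT →
    CurveOK K.κ.ρ d0 F (B10.pl F e) ∧ TorCurveOK d0 Kg F 𝒯 e eT ∧
    ∀ j, F.j0 ≤ j → ∀ d ∈ Metric.ball (0 : ℂ) d0, ‖B10.pl F e j d‖ ≤ Kg * ‖d‖ ∧ ‖(B10.pl F e j d).2.2‖ ≤ Kg * ‖d‖ ^ 2
  chart : ∀ (F : Raw) (g : Curve F), RawOK K.κ F → CurveOK K.κ.ρ d0 F g →
    (∀ (C1 : ℝ) (nf : NF F), BalOK K.κ C1 F nf → ∀ j j', F.j0 ≤ j → j ≤ j' →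
      ‖∑ i ∈ Finset.Ico j j', (nf.bzz i + K.Hq)‖ ≤ K.C2 C1 ∧ ‖∑ i ∈ Finset.Ico j j', (nf.btz i + K.bs)‖ ≤ K.C2 C1) →
    ∃ X : FChart F, FChartOK K.κ d0 K.bs K.Hq f F g X

theorem glueC_exists (K : RawK) : Nonempty (GlueC K) := by
  obtain ⟨d0, Kg, hd0, hd01, hg⟩ := gauss_curve K.κ K.d1 K.hd1
  obtain ⟨f, hf⟩ := fchart_exists K.κ d0 K.bs K.Hq K.C2 hd0 K.bs_pos K.hH
  exact ⟨⟨d0, Kg, f, hd0, hd01, hg, hf⟩⟩

/-- a radius `dt ≤ 1` with `Kg dt < ρ` -/
def GlueC.dt {K : RawK} (c : GlueC K) : ℝ := min 1 (K.κ.ρ / (|c.Kg| + 1))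

theorem GlueC.dt_pos {K : RawK} (c : GlueC K) : 0 < c.dt :=
  lt_min one_pos (div_pos K.κ.hρ (by positivity))

/-- the map constants of the Flow interface -/
def mapC (K : RawK) (c : GlueC K) : MapC where
  L := K.L
  D0 := K.D0
  ρ := min (min c.f.ρ K.κ.ρ) (K.bs * c.dt)
  θ := max c.f.θ K.κ.θ
  C := max (max c.f.C K.κ.C) (|c.Kg| / K.bs ^ 2)
  c := min K.κ.c K.cp
  Hq := K.Hq
  p := K.p
  w0 := K.w0
  hL := K.hL
  hD := K.hD
  hD2 := K.hD2
  hw0 := K.hw0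
  hρ := lt_min (lt_min c.f.hρ K.κ.hρ) (mul_pos K.bs_pos c.dt_pos)
  hθ0 := lt_of_lt_of_le c.f.hθ0 (le_max_left _ _)
  hθ := max_lt c.f.hθ K.κ.hθ
  hC := le_trans c.f.hC (le_trans (le_max_left _ _) (le_max_left _ _))
  hc := lt_min K.κ.hc K.hcp
  hH := K.hH
  hp := fun h => ⟨le_trans (min_le_right _ _) (K.hp h).1, le_trans (K.hp h).2 (le_trans (le_max_right _ _) (le_max_left _ _))⟩

/-- the Flow history of a raw system -/
def toHist (K : RawK) (S : RawSys) (X : FChart S.F) : Hist where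
  j0 := S.F.j0
  Q := S.F.A
  T := S.T
  N := X.N
  sc := X.sc
  Ψ := S.Ψ
  Y0 := fun b => X.ci S.F.j0 (0, 0, S.K0 S.F.j0 b)
  T0 := fun h b => S.T0 S.F.j0 h b
  rV := S.rV
  rP := S.rP
  v0 := S.v0
  kV := S.kV
  kP := S.kP
  cV := S.cV
  cP := S.cP
  σQ := S.F.σ
  σT := S.σT
  G := fun j h x => S.gtr (x / K.bs) h j
  pG := S.pG
  rM := S.rM
  kM := S.kM
  cM := S.cM

/-- the constants of the observable in Flow coordinates -/
def obsC (K : RawK) (c : GlueC K) (κo : F6.ObsC) : F6.ObsC where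
  C := κo.C * (2 * c.f.C)
  c := min (κo.c / c.f.C) (mapC K c).ρ
  θ := κo.θ
  hC := by
    have h1 := κo.hC
    have h2 := c.f.hC
    nlinarith
  hc := lt_min (div_pos κo.hc (lt_of_lt_of_le one_pos c.f.hC)) (mapC K c).hρ
  hθ0 := κo.hθ0
  hθ := κo.hθ

/-! ## 2. The leaves -/

/-- LEAF `L-ASM-PLANE`: monotonicity of `PlaneOK` in `ρ` (smaller), `θ`, `C` (larger).  `eord ≥ 0`, `wn ≥ 0`. -/
theorem planeOK_mono {ρ θ C c bs Hq ρ' θ' C' c' : ℝ} {j0 : ℕ} {Q : ℕ → Type} [∀ j, NormedAddCommGroup (Q j)] [∀ j, NormedSpace ℂ (Q j)]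
    {N : ∀ j, ℂ × ℂ × Q j → ℂ × ℂ × Q (j + 1)} {sc : ∀ j, ℂ × ℂ × Q j → ℂ × ℂ} {σQ : ∀ j, Q j →L[ℂ] Q j}
    (h : PlaneOK ρ θ C c bs Hq j0 N sc σQ) (hρ : ρ' ≤ ρ) (hθ : θ ≤ θ') (hC : C ≤ C') (hC0 : 0 ≤ C) (hc : c' ≤ c) :
    PlaneOK ρ' θ' C' c' bs Hq j0 N sc σQ := by
  have hsub : ∀ j, Metric.ball (0 : ℂ × ℂ × Q j) ρ' ⊆ Metric.ball 0 ρ := fun j => Metric.ball_subset_ball hρ
  have hw : ∀ (j : ℕ) (Y : ℂ × ℂ × Q j), 0 ≤ Flow.wn Y := fun j Y => le_max_of_le_left (norm_nonneg _)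
  have he : ∀ (j : ℕ) (Y : ℂ × ℂ × Q j), 0 ≤ Flow.eord j Y := fun j Y => by
    have := hw j Y
    unfold Flow.eord
    positivity
  exact
    { N_an := fun j hj => (h.N_an j hj).mono (hsub j)
      N_x := fun j hj Y hY => (h.N_x j hj Y (hsub j hY)).trans (mul_le_mul_of_nonneg_right hC (he j Y))
      N_y := fun j hj Y hY => (h.N_y j hj Y (hsub j hY)).trans (mul_le_mul_of_nonneg_right hC (he j Y))
      N_q := fun j hj Y hY => (h.N_q j hj Y (hsub j hY)).trans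
        (add_le_add (mul_le_mul_of_nonneg_right hθ (norm_nonneg _)) (mul_le_mul_of_nonneg_right hC (by positivity)))
      N_g := fun j hj u hu => h.N_g j hj u (lt_of_lt_of_le hu hρ)
      sc_an := fun j hj => (h.sc_an j hj).mono (hsub j)
      sc_t := fun j hj Y hY => (h.sc_t j hj Y (hsub j hY)).trans (mul_le_mul_of_nonneg_right hC (by positivity))
      sc_z := fun j hj Y hY => by
        have he : Real.exp (-c * j) ≤ Real.exp (-c' * j) :=
          Real.exp_le_exp.2 (mul_le_mul_of_nonneg_right (neg_le_neg hc) (Nat.cast_nonneg j))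
        have h1 : Real.exp (-c * j) * ‖Y.2.1‖ + Flow.wn Y ^ 2 + ‖Y.2.2‖ ≤ Real.exp (-c' * j) * ‖Y.2.1‖ + Flow.wn Y ^ 2 + ‖Y.2.2‖ := by
          have := mul_le_mul_of_nonneg_right he (norm_nonneg Y.2.1)
          linarith
        exact (h.sc_z j hj Y (hsub j hY)).trans
          ((mul_le_mul_of_nonneg_left h1 hC0).trans (mul_le_mul_of_nonneg_right hC (by positivity)))
      σQ_inv := h.σQ_inv
      σQ_iso := h.σQ_iso
      N_par := fun j hj Y hY => h.N_par j hj Y (hsub j hY)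
      sc_par := fun j hj Y hY => h.sc_par j hj Y (hsub j hY) }

theorem mapC_rho_le_f (K : RawK) (c : GlueC K) : (mapC K c).ρ ≤ c.f.ρ := le_trans (min_le_left _ _) (min_le_left _ _)

theorem mapC_rho_le_raw (K : RawK) (c : GlueC K) : (mapC K c).ρ ≤ K.κ.ρ := le_trans (min_le_left _ _) (min_le_right _ _)

theorem mapC_rho_le_dt (K : RawK) (c : GlueC K) : (mapC K c).ρ ≤ K.bs * c.dt := min_le_right _ _

theorem mapC_C_ge_f (K : RawK) (c : GlueC K) : c.f.C ≤ (mapC K c).C := le_trans (le_max_left _ _) (le_max_left _ _)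

theorem mapC_C_ge_raw (K : RawK) (c : GlueC K) : K.κ.C ≤ (mapC K c).C := le_trans (le_max_right _ _) (le_max_left _ _)

theorem norm_zero_zero {E : Type} [NormedAddCommGroup E] (k : E) : ‖((0 : ℂ), (0 : ℂ), k)‖ = ‖k‖ := by
  simp [Prod.norm_def]

theorem cvl_mono {θ ε A : ℝ} {u u' : ℕ → ℝ} (hθ : 0 ≤ θ) (hA : 1 ≤ A) (hε : 0 ≤ ε) (i : ℕ) (h : ∀ k ≤ i, u k ≤ A * u' k) :
    F6.cvl θ ε u i ≤ A * F6.cvl θ (A * ε) u' i := by
  unfold F6.cvl
  rw [mul_add, Finset.mul_sum]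
  refine add_le_add ?_ (Finset.sum_le_sum fun k hk => ?_)
  · have h1 : 0 ≤ θ ^ i * ε := by positivity
    have h2 : (1 : ℝ) ≤ A * A := by nlinarith
    calc θ ^ i * ε = 1 * (θ ^ i * ε) := (one_mul _).symm
      _ ≤ (A * A) * (θ ^ i * ε) := mul_le_mul_of_nonneg_right h2 h1
      _ = A * (θ ^ i * (A * ε)) := by ring
  · have hk' : k ≤ i := by have := Finset.mem_range.1 hk; omega
    calc θ ^ (i - k) * u k ≤ θ ^ (i - k) * (A * u' k) := mul_le_mul_of_nonneg_left (h k hk') (by positivity)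
      _ = A * (θ ^ (i - k) * u' k) := by ring

theorem cvl_nonneg {θ ε : ℝ} {u : ℕ → ℝ} (hθ : 0 ≤ θ) (hε : 0 ≤ ε) (hu : ∀ k, 0 ≤ u k) (i : ℕ) : 0 ≤ F6.cvl θ ε u i := by
  unfold F6.cvl
  exact add_nonneg (by positivity) (Finset.sum_nonneg fun k _ => mul_nonneg (by positivity) (hu k))

/-- `F6.StepIneq` is monotone: larger sequences, larger constant, smaller thresholds. -/
theorem stepIneq_mono {L : ℕ} {κo κo' : F6.ObsC} {Ce ce : ℝ} {P0 : ℕ} {ε : ℝ} {s j0 : ℕ} {u r t u' r' t' : ℕ → ℝ} {A : ℝ}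
    (hL : 1 ≤ L) (hCe : 0 ≤ Ce) (hA : 1 ≤ A) (hε : 0 ≤ ε)
    (hθ : κo'.θ = κo.θ) (hC : κo.C * A ≤ κo'.C) (hc : κo'.c ≤ κo.c / A)
    (hu0 : ∀ k, 0 ≤ u' k) (hr0 : ∀ k, 0 ≤ r' k)
    (hcmp : ∀ i, (∀ k ≤ i, u' k < κo'.c) → u i ≤ A * u' i ∧ r i ≤ A * r' i ∧ t i = t' i)
    (h : F6.StepIneq L κo Ce ce P0 ε s j0 u r t) : F6.StepIneq L κo' Ce ce P0 (A * ε) s j0 u' r' t' := by
  intro N i hN hCL hsP htube hM0 hM1 D ν ν2 lab cut hD hν hν2 hlab hcut hDν hlabc hcutc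
  have hA0 : 0 < A := by linarith
  have hκ1 := κo.hC
  have hκ0 : 0 < κo.C := by linarith
  have hθ0 : 0 ≤ κo.θ := κo.hθ0.le
  have hCC : κo.C ≤ κo'.C := le_trans (by nlinarith) hC
  have hC'0 : 0 ≤ κo'.C := by linarith
  have hcc : κo'.c ≤ κo.c := hc.trans (div_le_self κo.hc.le hA)
  have hAε : 0 ≤ A * ε := by positivity
  rw [hθ] at hν hlab
  have hk : ∀ k ≤ i, u k ≤ A * u' k ∧ r k ≤ A * r' k ∧ t k = t' k := fun k hk =>
    hcmp k fun k' hk' => htube k' (hk'.trans hk)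
  have hcv : ∀ k ≤ i, F6.cvl κo.θ ε u k ≤ A * F6.cvl κo.θ (A * ε) u' k := fun k hk' =>
    cvl_mono hθ0 hA hε k fun k' hk'' => (hk k' (hk''.trans hk')).1
  have hcv0 : ∀ k, 0 ≤ F6.cvl κo.θ (A * ε) u' k := cvl_nonneg hθ0 hAε hu0
  have hcv' : ∀ k ≤ i, κo.C * F6.cvl κo.θ ε u k ≤ κo'.C * F6.cvl κo.θ (A * ε) u' k := fun k hk' =>
    calc κo.C * F6.cvl κo.θ ε u k ≤ κo.C * (A * F6.cvl κo.θ (A * ε) u' k) := mul_le_mul_of_nonneg_left (hcv k hk') hκ0.le
      _ = κo.C * A * F6.cvl κo.θ (A * ε) u' k := by ring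
      _ ≤ _ := mul_le_mul_of_nonneg_right hC (hcv0 k)
  have hD0 : 0 < D := by
    rw [hD]
    have : (0 : ℝ) < L := by exact_mod_cast hL
    positivity
  have hν0 : 0 ≤ ν := le_trans (mul_nonneg hC'0 (hcv0 i)) hν
  have hν20 : 0 ≤ ν2 := le_trans (mul_nonneg hC'0 (hr0 i)) hν2
  have hlab0 : 0 ≤ lab := le_trans (by positivity) hlab
  have hcut0 : 0 ≤ cut := le_trans (by positivity) hcut
  have hQ : 0 < min (F6.Qc (L ^ N)) (F6.Qc (L ^ (N + 1))) :=
    lt_min (mul_pos hM0 (Real.exp_pos _)) (mul_pos hM1 (Real.exp_pos _))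
  have hMm : 0 < min (centerMag xyCritical (L ^ N)) (centerMag xyCritical (L ^ (N + 1))) := lt_min hM0 hM1
  have key := h N i hN (hCC.trans hCL) hsP
    (fun k hk' => by
      have h1 := (hk k hk').1
      have h2 := htube k hk'
      have h3 : A * u' k < A * (κo.c / A) := mul_lt_mul_of_pos_left (lt_of_lt_of_le h2 hc) hA0
      rw [mul_div_cancel₀ _ hA0.ne'] at h3
      linarith) hM0 hM1 D ν ν2 lab cut hD ((hcv' i le_rfl).trans hν)
    (by
      refine le_trans ?_ hν2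
      calc κo.C * r i ≤ κo.C * (A * r' i) := mul_le_mul_of_nonneg_left (hk i le_rfl).2.1 hκ0.le
        _ = κo.C * A * r' i := by ring
        _ ≤ _ := mul_le_mul_of_nonneg_right hC (hr0 i))
    (by
      refine le_trans ?_ hlab
      refine mul_le_mul_of_nonneg_left (Real.exp_le_exp.2 ?_) (by positivity)
      rw [Finset.mul_sum, Finset.mul_sum]
      exact Finset.sum_le_sum fun k hk' => hcv' k (by have := Finset.mem_range.1 hk'; omega))
    hcut (hDν.trans hcc) (hlabc.trans (mul_le_mul_of_nonneg_right hcc hQ.le))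
    (hcutc.trans (mul_le_mul_of_nonneg_right hcc hMm.le))
  rw [(hk i le_rfl).2.2] at key
  refine key.trans (mul_le_mul_of_nonneg_right hCC ?_)
  have e1 : 0 ≤ lab / min (F6.Qc (L ^ N)) (F6.Qc (L ^ (N + 1))) := div_nonneg hlab0 hQ.le
  have e2 : 0 ≤ cut / min (centerMag xyCritical (L ^ N)) (centerMag xyCritical (L ^ (N + 1))) := div_nonneg hcut0 hMm.le
  positivity

section leaves

variable (K : RawK) (c : GlueC K) (κe : EntC) (ε : ℝ) (s : ℕ) (S : RawSys) (X : FChart S.F)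

/-- LEAF `L-ASM-G`: the pure tori in Flow coordinates (`G j h x = gtr (x / b_*) h j`; `sc j (x, 0, 0)` = scalars of `gpl (x / b_*) j` by `FChartOK.ch_g`; `tr_succ`; `TorCurveOK`;
`G_var` from `RawMapOK.resp`, whose hypothesis holds by `CurveOK.bd` and `TorCurveOK.bd` with `‖d‖ < dt`). -/
theorem glue_G (hM : RawMapOK K S) (hg : CurveOK K.κ.ρ c.d0 S.F (B10.pl S.F S.e)) (ht : TorCurveOK c.d0 c.Kg S.F S.tor S.e S.eT)
    (hX : FChartOK K.κ c.d0 K.bs K.Hq c.f S.F (B10.pl S.F S.e) X) :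
    (∀ j h, S.F.j0 ≤ j → j ≤ h → DifferentiableOn ℂ ((toHist K S X).G j h) (Metric.ball 0 (mapC K c).ρ)) ∧
    (∀ j h, S.F.j0 ≤ j → j ≤ h → ∀ x : ℂ, ‖x‖ < (mapC K c).ρ → ‖(toHist K S X).G j h x‖ ≤ (mapC K c).C * ‖x‖ ^ 2) ∧
    (∀ j h, S.F.j0 ≤ j → j ≤ h → ∀ x : ℂ, ‖x‖ < (mapC K c).ρ →
      (toHist K S X).σT j h ((toHist K S X).G j h x) = (toHist K S X).G j h x) ∧
    (∀ j h, S.F.j0 ≤ j → j < h → ∀ x : ℂ, ‖x‖ < (mapC K c).ρ →
      (toHist K S X).Ψ j h ((toHist K S X).sc j (x, 0, 0), (toHist K S X).G j h x) = (toHist K S X).G (j + 1) h x) ∧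
    (∀ h, S.F.j0 ≤ h → ∀ x : ℂ, ‖x‖ < (mapC K c).ρ →
      (toHist K S X).rV h ((toHist K S X).sc h (x, 0, 0), (toHist K S X).G h h x)
        = (toHist K S X).kV h * (x / (mapC K c).bs) / (1 - (toHist K S X).pG h * (x / (mapC K c).bs))) := by
  have hbs := K.bs_pos
  have hρf := mapC_rho_le_f K c
  have hd : ∀ j, S.F.j0 ≤ j → ∀ x : ℂ, ‖x‖ < (mapC K c).ρ → x / (K.bs : ℂ) ∈ Metric.ball (0 : ℂ) c.d0 := by
    intro j hj x hx
    rw [mem_ball_zero_iff]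
    exact (hX.ch_g j hj x (lt_of_lt_of_le hx hρf)).1
  have hch : ∀ j, S.F.j0 ≤ j → ∀ x : ℂ, ‖x‖ < (mapC K c).ρ → X.ch j (x, 0, 0) = B10.pl S.F S.e j (x / K.bs) :=
    fun j hj x hx => (hX.ch_g j hj x (lt_of_lt_of_le hx hρf)).2
  have hnd : ∀ x : ℂ, ‖x / (K.bs : ℂ)‖ = ‖x‖ / K.bs := by
    intro x
    rw [norm_div, Complex.norm_real, Real.norm_eq_abs, abs_of_pos hbs]
  refine ⟨?_, ?_, ?_, ?_, ?_⟩
  · intro j h hj hh
    show DifferentiableOn ℂ (fun x : ℂ => B10.tr S.F S.tor S.e S.eT h j (x / K.bs)) _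
    refine (ht.an j h hj hh).comp (differentiableOn_id.div_const _) ?_
    intro x hx
    exact hd j hj x (mem_ball_zero_iff.1 hx)
  · intro j h hj hh x hx
    show ‖B10.tr S.F S.tor S.e S.eT h j (x / K.bs)‖ ≤ _
    have h1 := ht.bd j h hj hh _ (hd j hj x hx)
    rw [hnd, div_pow] at h1
    calc _ ≤ c.Kg * (‖x‖ ^ 2 / K.bs ^ 2) := h1
      _ ≤ |c.Kg| * (‖x‖ ^ 2 / K.bs ^ 2) := mul_le_mul_of_nonneg_right (le_abs_self _) (by positivity)
      _ = |c.Kg| / K.bs ^ 2 * ‖x‖ ^ 2 := by ring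
      _ ≤ _ := mul_le_mul_of_nonneg_right (le_max_right _ _) (by positivity)
  · intro j h hj hh x hx
    exact ht.even j h hj hh _ (hd j hj x hx)
  · intro j h hj hh x hx
    show S.Ψ j h (((X.ch j (x, 0, 0)).1, (X.ch j (x, 0, 0)).2.1), B10.tr S.F S.tor S.e S.eT h j (x / K.bs))
      = B10.tr S.F S.tor S.e S.eT h (j + 1) (x / K.bs)
    rw [hch j hj x hx]
    exact (tr_succ S.F S.tor S.e S.eT h hj (x / K.bs)).symm
  · intro h hh x hx
    have hdd := hd h hh x hx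
    have h1 := hM.resp h hh (x / K.bs) (Metric.ball_subset_ball c.hd01 hdd) ?_
    · show S.rV h (((X.ch h (x, 0, 0)).1, (X.ch h (x, 0, 0)).2.1), B10.tr S.F S.tor S.e S.eT h h (x / K.bs)) = _
      rw [hch h hh x hx]
      exact h1
    · intro j hj hjh
      constructor
      · have := hg.bd j hj _ hdd
        have hρ := K.κ.hρ
        exact lt_of_le_of_lt this (by linarith)
      · have h2 := ht.bd j h hj hjh _ hdd
        have hdt : ‖x / (K.bs : ℂ)‖ < c.dt := by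
          rw [hnd, div_lt_iff₀ hbs]
          have := mapC_rho_le_dt K c
          linarith
        have hdt1 : c.dt ≤ 1 := min_le_left _ _
        have hdt2 : c.dt ≤ K.κ.ρ / (|c.Kg| + 1) := min_le_right _ _
        have hn0 : 0 ≤ ‖x / (K.bs : ℂ)‖ := norm_nonneg _
        have hK0 : 0 ≤ |c.Kg| := abs_nonneg _
        have h3 : ‖x / (K.bs : ℂ)‖ ^ 2 ≤ c.dt := by nlinarith
        have h4 : c.Kg * ‖x / (K.bs : ℂ)‖ ^ 2 ≤ |c.Kg| * c.dt :=
          (mul_le_mul_of_nonneg_right (le_abs_self _) (by positivity)).trans (mul_le_mul_of_nonneg_left h3 hK0)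
        have h5 : |c.Kg| * c.dt < K.κ.ρ := by
          have h6 : |c.Kg| * c.dt ≤ |c.Kg| * (K.κ.ρ / (|c.Kg| + 1)) := mul_le_mul_of_nonneg_left hdt2 hK0
          have h7 : |c.Kg| * (K.κ.ρ / (|c.Kg| + 1)) < K.κ.ρ := by
            rw [← mul_div_assoc, div_lt_iff₀ (by positivity)]
            have := K.κ.hρ
            nlinarith
          linarith
        exact lt_of_le_of_lt (h2.trans h4) h5

/-- LEAF `L-ASM-LINK`: the Flow history IS the raw history read in the chart, as long as the earlier plane stages lie in the domain.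
Induction on `i`: `FChartOK.ch_ci` (entry), `FChartOK.conj` (step), `pl_le`, `pl_succ`, `tr_le`, `tr_succ`. -/
theorem glue_link (hX : FChartOK K.κ c.d0 K.bs K.Hq c.f S.F (B10.pl S.F S.e) X) (b : ℂ) (hb : ‖S.K0 S.F.j0 b‖ < c.f.r') (i : ℕ)
    (hi : ∀ i' < i, ‖(toHist K S X).st b i'‖ < (mapC K c).ρ) :
    X.ch (S.F.j0 + i) ((toHist K S X).st b i) = S.pl b (S.F.j0 + i) ∧
    ∀ h, (toHist K S X).tor b h i = S.tr b h (S.F.j0 + i) := by
  induction i with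
  | zero =>
    have hZ : ((0 : ℂ), (0 : ℂ), S.K0 S.F.j0 b) ∈ Metric.ball (0 : ℂ × ℂ × S.F.A S.F.j0) c.f.r' := by
      rw [mem_ball_zero_iff, norm_zero_zero]; exact hb
    constructor
    · show X.ch S.F.j0 (X.ci S.F.j0 (0, 0, S.K0 S.F.j0 b)) = B10.pl S.F S.eK S.F.j0 b
      rw [hX.ch_ci _ le_rfl _ hZ, pl_le _ _ le_rfl]
      rfl
    · intro h
      exact (congrFun (tr_le S.F S.tor S.eK S.T0 h le_rfl) b).symm
  | succ i ih =>
    obtain ⟨ih1, ih2⟩ := ih (fun i' hi' => hi i' (by omega))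
    have hY : (toHist K S X).st b i ∈ Metric.ball (0 : ℂ × ℂ × S.F.A (S.F.j0 + i)) c.f.ρ :=
      mem_ball_zero_iff.2 (lt_of_lt_of_le (hi i (by omega)) (mapC_rho_le_f K c))
    constructor
    · show X.ch (S.F.j0 + i + 1) (X.N (S.F.j0 + i) ((toHist K S X).st b i)) = B10.pl S.F S.eK (S.F.j0 + i + 1) b
      rw [hX.conj _ (by omega) _ hY, ih1, pl_succ _ _ (by omega)]
      rfl
    · intro h
      show S.Ψ (S.F.j0 + i) h (((X.ch (S.F.j0 + i) ((toHist K S X).st b i)).1,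
        (X.ch (S.F.j0 + i) ((toHist K S X).st b i)).2.1), (toHist K S X).tor b h i)
          = B10.tr S.F S.tor S.eK S.T0 h (S.F.j0 + i + 1) b
      rw [ih1, ih2]
      exact (tr_succ S.F S.tor S.eK S.T0 h (by omega : S.F.j0 ≤ S.F.j0 + i) b).symm

/-- LEAF `L-ASM-INSIDE`: from `glue_link`, `FChartOK.ch_bd`. -/
theorem glue_inside (hX : FChartOK K.κ c.d0 K.bs K.Hq c.f S.F (B10.pl S.F S.e) X) (b : ℂ) (hb : ‖S.K0 S.F.j0 b‖ < c.f.r') (i : ℕ)
    (hi : (toHist K S X).Inside (mapC K c).ρ b (S.F.j0 + i) i) :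
    S.Inside K.κ.ρ b (S.F.j0 + i) ∧ (toHist K S X).ts b (S.F.j0 + i) i = S.ts b (S.F.j0 + i) (S.F.j0 + i) := by
  have hl : ∀ i' ≤ i, X.ch (S.F.j0 + i') ((toHist K S X).st b i') = S.pl b (S.F.j0 + i') ∧
      ∀ h, (toHist K S X).tor b h i' = S.tr b h (S.F.j0 + i') := fun i' hi' =>
    glue_link K c S X hX b hb i' (fun i'' hi'' => (hi i'' (by omega)).1)
  have hts : ∀ i' ≤ i, ∀ h, (toHist K S X).ts b h i' = S.ts b h (S.F.j0 + i') := by
    intro i' hi' h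
    obtain ⟨h1, h2⟩ := hl i' hi'
    show (((X.ch (S.F.j0 + i') ((toHist K S X).st b i')).1, (X.ch (S.F.j0 + i') ((toHist K S X).st b i')).2.1),
      (toHist K S X).tor b h i') = _
    rw [h1, h2]
    rfl
  refine ⟨?_, hts i le_rfl _⟩
  intro j hj hjh
  obtain ⟨i', rfl⟩ := Nat.exists_eq_add_of_le hj
  have hi' : i' ≤ i := by omega
  obtain ⟨h1, h2⟩ := hi i' hi'
  constructor
  · rw [← (hl i' hi').1]
    exact (hX.ch_bd (S.F.j0 + i') (Nat.le_add_right _ _) _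
      (mem_ball_zero_iff.2 (lt_of_lt_of_le h1 (mapC_rho_le_f K c)))).2
  · rw [← hts i' hi']
    exact lt_of_lt_of_le h2 (mapC_rho_le_raw K c)

/-- LEAF `L-ASM-ENTRY`: `Flow.EntryOK` with `ρe = c.f.C * ε` (`ci_an`, `ci_bd`; reality: `K0_re`, `ci_re`, `N_re`, induction: the states are fixed by `F.K`). -/
theorem glue_entry (hM : RawMapOK K S) (hE : RawEntryOK K κe ε s S) (hε : ε < c.f.r') (hε0 : 0 ≤ ε)
    (hX : FChartOK K.κ c.d0 K.bs K.Hq c.f S.F (B10.pl S.F S.e) X) :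
    EntryOK (mapC K c) κe (c.f.C * ε) s (toHist K S X) := by
  have hC1 : 1 ≤ c.f.C := c.f.hC
  have hZ : ∀ b ∈ disk κe s, ((0 : ℂ), (0 : ℂ), S.K0 S.F.j0 b) ∈ Metric.ball (0 : ℂ × ℂ × S.F.A S.F.j0) c.f.r' := by
    intro b hb
    rw [mem_ball_zero_iff, norm_zero_zero]
    exact lt_of_le_of_lt (hE.K0_bd b hb) hε
  have hfix : ∀ b : ℝ, (b : ℂ) ∈ disk κe s → ∀ i, (∀ i' < i, ‖(toHist K S X).st b i'‖ < (mapC K c).ρ) →
      S.F.K (S.F.j0 + i) ((toHist K S X).st b i) = (toHist K S X).st b i := by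
    intro b hb i
    induction i with
    | zero =>
      intro _
      show S.F.K S.F.j0 (X.ci S.F.j0 (0, 0, S.K0 S.F.j0 b)) = X.ci S.F.j0 (0, 0, S.K0 S.F.j0 b)
      rw [← hX.ci_re _ le_rfl _ (hZ b hb)]
      congr 1
      simp only [Raw.K, map_zero, hE.K0_re b hb]
    | succ i ih =>
      intro hi
      have ih' := ih (fun i' hi' => hi i' (by omega))
      have hY : (toHist K S X).st b i ∈ Metric.ball (0 : ℂ × ℂ × S.F.A (S.F.j0 + i)) c.f.ρ :=
        mem_ball_zero_iff.2 (lt_of_lt_of_le (hi i (by omega)) (mapC_rho_le_f K c))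
      show S.F.K (S.F.j0 + i + 1) (X.N (S.F.j0 + i) ((toHist K S X).st b i)) = X.N (S.F.j0 + i) ((toHist K S X).st b i)
      rw [← hX.N_re (S.F.j0 + i) (Nat.le_add_right _ _) _ hY, ih']
  exact
    { side := hE.side
      Y0_an := by
        show DifferentiableOn ℂ (fun b => X.ci S.F.j0 (0, 0, S.K0 S.F.j0 b)) (disk κe s)
        refine (hX.ci_an _ le_rfl).comp ?_ hZ
        exact (differentiableOn_const _).prodMk ((differentiableOn_const _).prodMk hE.K0_an)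
      Y0_bd := fun b hb => by
        show ‖X.ci S.F.j0 (0, 0, S.K0 S.F.j0 b)‖ ≤ _
        refine (hX.ci_bd _ le_rfl _ (hZ b hb)).trans ?_
        rw [norm_zero_zero]
        exact mul_le_mul_of_nonneg_left (hE.K0_bd b hb) (by linarith)
      T0_an := hE.T0_an
      T0_bd := fun h hh b hb => (hE.T0_bd h hh b hb).trans (by nlinarith)
      real := fun b hb i hi => by
        have h1 := hfix b hb i hi
        have h2 : starRingEnd ℂ ((toHist K S X).st b i).1 = ((toHist K S X).st b i).1 := congrArg Prod.fst h1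
        have h3 : starRingEnd ℂ ((toHist K S X).st b i).2.1 = ((toHist K S X).st b i).2.1 :=
          congrArg (fun Y => Y.2.1) h1
        exact ⟨Complex.conj_eq_iff_im.1 h2, Complex.conj_eq_iff_im.1 h3⟩ }

/-- LEAF `L-ASM-READ`: `Flow.ReadOK` (all fields are the raw fields, transported by `glue_inside`; constants by monotonicity; `G_var` from `glue_G`; `cmpV` from `K.κ.C ≤ κe.C`). -/
theorem glue_read (hM : RawMapOK K S) (hE : RawEntryOK K κe ε s S) (hR : RawReadOK K κe s S) (hε : ε < c.f.r') (hκe : K.κ.C ≤ κe.C)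
    (hg : CurveOK K.κ.ρ c.d0 S.F (B10.pl S.F S.e)) (ht : TorCurveOK c.d0 c.Kg S.F S.tor S.e S.eT)
    (hX : FChartOK K.κ c.d0 K.bs K.Hq c.f S.F (B10.pl S.F S.e) X) :
    ReadOK (mapC K c) κe s (toHist K S X) := by
  have hρ := mapC_rho_le_raw K c
  have hC := mapC_C_ge_raw K c
  have hsub : ∀ h, Metric.ball (0 : (ℂ × ℂ) × S.T h h) (mapC K c).ρ ⊆ Metric.ball 0 K.κ.ρ :=
    fun h => Metric.ball_subset_ball hρ
  have hb' : ∀ b : ℝ, (b : ℂ) ∈ disk κe s → ‖S.K0 S.F.j0 b‖ < c.f.r' :=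
    fun b hb => lt_of_le_of_lt (hE.K0_bd b hb) hε
  obtain ⟨-, -, -, -, g5⟩ := glue_G K c S X hM hg ht hX
  exact
    { rV_an := fun h hh => (hR.rV_an h hh).mono (hsub h)
      rP_an := fun h hh => (hR.rP_an h hh).mono (hsub h)
      rV_bd := fun h hh Y hY => (hR.rV_bd h hh Y (hsub h hY)).trans (mul_le_mul_of_nonneg_right hC (by positivity))
      rP_bd := fun h hh Y hY => (hR.rP_bd h hh Y (hsub h hY)).trans (mul_le_mul_of_nonneg_right hC (by positivity))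
      v0_bd := fun h hh => (hR.v0_bd h hh).trans (mul_le_mul_of_nonneg_right hC (by positivity))
      kV_bd := fun h hh => (hR.kV_bd h hh).trans (mul_le_mul_of_nonneg_right hC (by positivity))
      kP_bd := fun h hh => (hR.kP_bd h hh).trans (mul_le_mul_of_nonneg_right hC (by positivity))
      repV := fun b i hb hv hi => by
        obtain ⟨h1, h2⟩ := glue_inside K c S X hX b (hb' b hb) i hi
        have h3 := hR.repV b (S.F.j0 + i) hb hv h1
        rw [← h2] at h3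
        exact h3
      repP := fun b i hb hv hi => by
        obtain ⟨h1, h2⟩ := glue_inside K c S X hX b (hb' b hb) i hi
        have h3 := hR.repP b (S.F.j0 + i) hb hv h1
        rw [← h2] at h3
        exact h3
      cmpV := fun b h hb hv => (hR.cmpV b h hb hv).trans
        (add_le_add (mul_le_mul_of_nonneg_right hκe (by positivity)) le_rfl)
      cmpP := fun b h hb hv => hR.cmpP b h hb hv
      lipV := fun b b' h hb hb2 hv => hR.lipV b b' h hb hb2 hv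
      lipP := fun b b' h hb hb2 hv => hR.lipP b b' h hb hb2 hv
      rV_par := fun h hh Y hY => hR.rV_par h hh Y (hsub h hY)
      rP_par := fun h hh Y hY => hR.rP_par h hh Y (hsub h hY)
      rM_par := fun h hh Y hY => hR.rM_par h hh Y (hsub h hY)
      rM_an := fun h hh => (hR.rM_an h hh).mono (hsub h)
      rM_bd := fun h hh Y hY => (hR.rM_bd h hh Y (hsub h hY)).trans (mul_le_mul_of_nonneg_right hC (by positivity))
      kM_bd := fun h hv => ⟨le_trans (min_le_right _ _) (hR.kM_bd h hv).1, (hR.kM_bd h hv).2.trans hC⟩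
      repM := fun b i hb hv hi => by
        obtain ⟨h1, h2⟩ := glue_inside K c S X hX b (hb' b hb) i hi
        have h3 := hR.repM b (S.F.j0 + i) hb hv h1
        rw [← h2] at h3
        exact h3
      cmpM := fun b h hb hv => (hR.cmpM b h hb hv).trans
        (add_le_add (mul_le_mul_of_nonneg_right hC (by positivity)) le_rfl)
      cmpV' := fun b h hb hv => (hR.cmpV b h hb hv).trans
        (add_le_add (mul_le_mul_of_nonneg_right hC (by positivity)) le_rfl)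
      G_var := g5
      pG_bd := fun h hh => ⟨(hR.pG_bd h hh).1, (hR.pG_bd h hh).2.1,
        (hR.pG_bd h hh).2.2.trans (mul_le_mul_of_nonneg_right hC (by positivity))⟩ }

/-- LEAF `L-ASM-CENTER`: `F6.StepIneq` is monotone.  In the tube `‖st k‖ < (obsC ..).c ≤ (mapC ..).ρ`: `S.pl = ch (st)` (`glue_link`), so `u_raw ≤ C u`, `r_raw ≤ ‖Q‖ + C wn² ≤ C r`
(`ch_bd`, `ch_R`), `t_raw = t`; `ε ≤ C ε`; `cvl θ ε u_raw ≤ C cvl θ (C ε) u`... all hypotheses of the raw inequality follow from those of the Flow inequality, and the bound only grows. -/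
theorem glue_center (κo : F6.ObsC) (hE : RawEntryOK K κe ε s S) (hε : ε < c.f.r') (hε0 : 0 ≤ ε)
    (hX : FChartOK K.κ c.d0 K.bs K.Hq c.f S.F (B10.pl S.F S.e) X) (hc : F6.RawCenterOK K κo κe ε s S) :
    F6.CenterOK (mapC K c) (obsC K c κo) κe (c.f.C * ε) s (toHist K S X) := by
  have hC1 : 1 ≤ c.f.C := c.f.hC
  have hs : s ≠ 0 := by
    rintro rfl
    have h1 := hE.side
    rw [mul_zero] at h1
    have h2 : 0 < K.L ^ S.F.j0 := pow_pos (by have := K.hL; omega) _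
    omega
  have hbc : (xyCritical : ℂ) ∈ disk κe s := by
    unfold disk
    apply Metric.mem_ball_self
    have : (0 : ℝ) < s := by exact_mod_cast Nat.pos_of_ne_zero hs
    exact div_pos κe.hc (by positivity)
  have hb : ‖S.K0 S.F.j0 xyCritical‖ < c.f.r' := lt_of_le_of_lt (hE.K0_bd _ hbc) hε
  have hL1 : 1 ≤ K.L := by have := K.hL; omega
  refine stepIneq_mono (L := K.L) (κo := κo) (κo' := obsC K c κo) (A := c.f.C) hL1 (by have := κe.hC; linarith) hC1 hε0 rfl ?_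
    (min_le_left _ _) (fun k => norm_nonneg _) (fun k => by positivity) ?_ hc
  · show κo.C * c.f.C ≤ κo.C * (2 * c.f.C)
    have := κo.hC
    nlinarith
  · intro i htube
    have hρ : ∀ k ≤ i, ‖(toHist K S X).st xyCritical k‖ < (mapC K c).ρ := fun k hk =>
      lt_of_lt_of_le (htube k hk) (min_le_right _ _)
    have hl := (glue_link K c S X hX xyCritical hb i (fun i' hi' => hρ i' hi'.le)).1
    have hρi := hρ i le_rfl
    show ‖S.pl xyCritical (S.F.j0 + i)‖ ≤ c.f.C * ‖(toHist K S X).st xyCritical i‖ ∧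
      ‖(S.pl xyCritical (S.F.j0 + i)).2.2‖
        ≤ c.f.C * (‖((toHist K S X).st xyCritical i).2.2‖ + ‖(toHist K S X).st xyCritical i‖ ^ 2) ∧
      ((S.pl xyCritical (S.F.j0 + i)).1).re = ((X.ch (S.F.j0 + i) ((toHist K S X).st xyCritical i)).1).re
    obtain ⟨Y, hYd⟩ : ∃ Y : ℂ × ℂ × S.F.A (S.F.j0 + i), Y = (toHist K S X).st xyCritical i := ⟨_, rfl⟩
    rw [← hYd] at hl hρi ⊢
    have hY : Y ∈ Metric.ball (0 : ℂ × ℂ × S.F.A (S.F.j0 + i)) c.f.ρ :=
      mem_ball_zero_iff.2 (lt_of_lt_of_le hρi (mapC_rho_le_f K c))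
    have hj : S.F.j0 ≤ S.F.j0 + i := Nat.le_add_right _ _
    rw [← hl]
    refine ⟨(hX.ch_bd _ hj _ hY).1, ?_, rfl⟩
    have h1 := hX.ch_R _ hj _ hY
    have h2 : ‖(X.ch (S.F.j0 + i) Y).2.2‖ ≤ ‖Y.2.2‖ + c.f.C * Flow.wn Y ^ 2 := by
      have h3 := norm_add_le ((X.ch (S.F.j0 + i) Y).2.2 - Y.2.2) Y.2.2
      rw [sub_add_cancel] at h3
      linarith
    have h4 : Flow.wn Y ≤ ‖Y‖ := by
      unfold Flow.wn
      exact max_le (norm_fst_le _) ((norm_fst_le _).trans (norm_snd_le _))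
    have h5 : 0 ≤ Flow.wn Y := le_max_of_le_left (norm_nonneg _)
    have h6 : Flow.wn Y ^ 2 ≤ ‖Y‖ ^ 2 := pow_le_pow_left₀ h5 h4 2
    have h7 : 0 ≤ ‖Y.2.2‖ := norm_nonneg _
    have h8 : c.f.C * Flow.wn Y ^ 2 ≤ c.f.C * ‖Y‖ ^ 2 := mul_le_mul_of_nonneg_left h6 (by linarith)
    have h9 : ‖Y.2.2‖ ≤ c.f.C * ‖Y.2.2‖ := le_mul_of_one_le_left h7 hC1
    show ‖(X.ch (S.F.j0 + i) Y).2.2‖ ≤ c.f.C * (‖Y.2.2‖ + ‖Y‖ ^ 2)
    rw [mul_add]
    linarith

end leaves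

/-! ## 3. Assembly -/

/-- `Flow.MapOK` from the leaves -/
theorem glue_map (K : RawK) (c : GlueC K) (S : RawSys) (X : FChart S.F) (hM : RawMapOK K S)
    (hg : CurveOK K.κ.ρ c.d0 S.F (B10.pl S.F S.e)) (ht : TorCurveOK c.d0 c.Kg S.F S.tor S.e S.eT)
    (hX : FChartOK K.κ c.d0 K.bs K.Hq c.f S.F (B10.pl S.F S.e) X) :
    MapOK (mapC K c) (toHist K S X) := by
  have hp : PlaneOK (mapC K c).ρ (mapC K c).θ (mapC K c).C (mapC K c).c K.bs K.Hq S.F.j0 X.N X.sc S.F.σ :=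
    planeOK_mono hX.plane (le_trans (min_le_left _ _) (min_le_left _ _)) (le_max_left _ _)
      (le_trans (le_max_left _ _) (le_max_left _ _)) (le_trans zero_le_one c.f.hC) (min_le_left _ _)
  obtain ⟨g1, g2, g3, g4, -⟩ := glue_G K c S X hM hg ht hX
  have hρ : (mapC K c).ρ ≤ K.κ.ρ := le_trans (min_le_left _ _) (min_le_right _ _)
  have hθ : K.κ.θ ≤ (mapC K c).θ := le_max_right _ _
  have hC : K.κ.C ≤ (mapC K c).C := le_trans (le_max_right _ _) (le_max_left _ _)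
  exact
    { N_an := hp.N_an
      N_x := hp.N_x
      N_y := hp.N_y
      N_q := hp.N_q
      N_g := hp.N_g
      sc_an := hp.sc_an
      sc_t := hp.sc_t
      sc_z := hp.sc_z
      Ψ_an := fun j h hj hh => (hM.Ψ_an j h hj hh).mono (Metric.ball_subset_ball hρ)
      Ψ_bd := fun j h hj hh X hX => by
        have h1 := hM.Ψ_bd j h hj hh X (Metric.ball_subset_ball hρ hX)
        have h2 : K.κ.θ * ‖X.2‖ ≤ (mapC K c).θ * ‖X.2‖ := mul_le_mul_of_nonneg_right hθ (norm_nonneg _)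
        have h3 : K.κ.C * ‖X‖ ^ 2 ≤ (mapC K c).C * ‖X‖ ^ 2 := mul_le_mul_of_nonneg_right hC (by positivity)
        exact le_trans h1 (add_le_add h2 h3)
      σQ_inv := hp.σQ_inv
      σQ_iso := hp.σQ_iso
      σT_inv := hM.σT_inv
      σT_iso := hM.σT_iso
      N_par := hp.N_par
      sc_par := hp.sc_par
      Ψ_par := fun j h hj hh X hX => hM.Ψ_par j h hj hh X (Metric.ball_subset_ball hρ hX)
      G_an := g1
      G_bd := g2
      G_even := g3
      G_step := g4 }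

/-- **THE RG CONTRACT with the centre observable**, PROVED from `raw_system_center`, the bridge B10 and the leaves above -/
theorem rg_system_center : ∃ (κ : MapC) (κo : F6.ObsC), ∀ δ : ℝ, 0 < δ → ∃ (ρe : ℝ) (κe : EntC) (H : ℕ → Hist),
    0 < ρe ∧ ρe * κe.P0 ≤ δ ∧ 1 / (κe.P0 : ℝ) ≤ δ ∧
    (∃ j1, κe.q0 ∣ κ.L ^ j1) ∧ ∀ s, Adm κ κe s → SysOK κ κe ρe s (H s) ∧ F6.CenterOK κ κo κe ρe s (H s) := by
  obtain ⟨K, κo, hraw⟩ := raw_system_center
  obtain ⟨c⟩ := glueC_exists K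
  refine ⟨mapC K c, obsC K c κo, fun δ hδ => ?_⟩
  have hF : 0 < c.f.C := lt_of_lt_of_le one_pos c.f.hC
  have hr' : 0 < c.f.r' := c.f.hr'
  obtain ⟨ε, κe, S, hε, h1, h2, hκe, hdvd, hS⟩ := hraw (min (δ / c.f.C) (c.f.r' / 2))
    (lt_min (div_pos hδ hF) (by linarith))
  have hP1 : (1 : ℝ) ≤ κe.P0 := by exact_mod_cast κe.hP
  have hεP : ε ≤ ε * κe.P0 := le_mul_of_one_le_right hε.le hP1
  have hεr : ε < c.f.r' := by
    have := le_trans hεP (le_trans h1 (min_le_right _ _)); linarith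
  -- the charts
  have hex : ∀ s, ∃ X : FChart (S s).F, Adm (mapC K c) κe s →
      CurveOK K.κ.ρ c.d0 (S s).F (B10.pl (S s).F (S s).e) ∧ TorCurveOK c.d0 c.Kg (S s).F (S s).tor (S s).e (S s).eT ∧
      FChartOK K.κ c.d0 K.bs K.Hq c.f (S s).F (B10.pl (S s).F (S s).e) X := by
    intro s
    by_cases hs : Adm (mapC K c) κe s
    · have hs' := (hS s hs.1 hs.2).1
      have hg := c.gauss (S s).F (S s).tor (S s).e (S s).eT hs'.map.raw (torOK K κe s (S s) hs'.map hs'.read) hs'.map.pure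
      obtain ⟨X, hX⟩ := c.chart (S s).F _ hs'.map.raw hg.1 hs'.map.block
      exact ⟨X, fun _ => ⟨hg.1, hg.2.1, hX⟩⟩
    · exact ⟨⟨fun _ _ => 0, fun _ Y => Y, fun _ Y => Y⟩, fun h => absurd h hs⟩
  choose X hX using hex
  refine ⟨c.f.C * ε, κe, fun s => toHist K (S s) (X s), mul_pos hF hε, ?_, ?_, hdvd, ?_⟩
  · have := le_trans h1 (min_le_left _ _)
    rw [le_div_iff₀ hF] at this
    nlinarith
  · exact le_trans h2 (le_trans (min_le_left _ _) (div_le_self hδ.le c.f.hC))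
  · intro s hs
    obtain ⟨hs', hc'⟩ := hS s hs.1 hs.2
    obtain ⟨hg, ht, hn⟩ := hX s hs
    exact ⟨⟨glue_map K c (S s) (X s) hs'.map hg ht hn,
      glue_entry K c κe ε s (S s) (X s) hs'.map hs'.entry hεr hε.le hn,
      glue_read K c κe ε s (S s) (X s) hs'.map hs'.entry hs'.read hεr hκe hg ht hn⟩,
      glue_center K c κe ε s (S s) (X s) κo hs'.entry hεr hε.le hn hc'⟩

/-- **`Flow.rg_system`** -/
theorem rg_system' : ∃ κ : MapC, ∀ δ : ℝ, 0 < δ → ∃ (ρe : ℝ) (κe : EntC) (H : ℕ → Hist),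
    0 < ρe ∧ ρe * κe.P0 ≤ δ ∧ 1 / (κe.P0 : ℝ) ≤ δ ∧
    (∃ j1, κe.q0 ∣ κ.L ^ j1) ∧ ∀ s, Adm κ κe s → SysOK κ κe ρe s (H s) := by
  obtain ⟨κ, _, h⟩ := rg_system_center
  refine ⟨κ, fun δ hδ => ?_⟩
  obtain ⟨ρe, κe, H, h1, h2, h3, h4, h5⟩ := h δ hδ
  exact ⟨ρe, κe, H, h1, h2, h3, h4, fun s hs => (h5 s hs).1⟩

end

end Claimed.Agent.R285.Asm
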