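import Claimed.Agent.R285.Read.F5
import Claimed.Agent.R285.Read.E4
import Claimed.Agent.R285.Asm.RawGlue

/-!
# ROW 285, ASSEMBLY 1 (owner helper27): the chain   `Flow.rg_system` ⟹ [F]s5 / [E]P3.6 ⟹ [E]s4 ⟹ `passage`

Everything in this file is PROVED glue: it checks that the quantifiers of `Flow.rg_system`, `F5.crit_histories`, `E4.response`, `E4.passage_time` fit together.
`Flow.rg_system` itself is derived from the raw construction contract `Asm.raw_system` in `R285/Asm/RawSys.lean`, `RawGlue.lean`.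
-/

set_option autoImplicit false

namespace Claimed.Agent.R285.Asm

open Filter Topology Claims.C0459
open Claimed.Agent.R285.Flow

noncomputable section

/-- everything the dynamics produces, for one choice of the entry -/
structure Dyn where
  κ : MapC
  κe : EntC
  ρe : ℝ
  ρt : ℝ
  H : ℕ → Hist
  hρt : ρt ≤ κ.ρ
  hF : F5.Hyp κ κe ρe H
  hE : E4.Hyp κ κe ρe ρt H
  P : ℝ
  hP : E4.IsResp hE P
  pass : E4.PassageConcl κ.L κ.D0 (Real.pi / Real.sqrt (3 * P))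

/-- the chain construction ⟹ critical histories ⟹ response ⟹ passage -/
theorem dyn_exists : Nonempty Dyn := by
  obtain ⟨κ, hcon⟩ := rg_system'
  obtain ⟨ρa, hρa, hcrit⟩ := F5.crit_histories κ
  obtain ⟨ρb, hρb, hresp⟩ := E4.response κ
  obtain ⟨ρc, hρc, hpass⟩ := E4.passage_time κ
  -- the tube
  set ρt : ℝ := min (min ρa ρb) (min ρc κ.ρ) with hρt
  have h0 : 0 < ρt := lt_min (lt_min hρa hρb) (lt_min hρc κ.hρ)
  have ha : ρt ≤ ρa := le_trans (min_le_left _ _) (min_le_left _ _)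
  have hb : ρt ≤ ρb := le_trans (min_le_left _ _) (min_le_right _ _)
  have hc : ρt ≤ ρc := le_trans (min_le_right _ _) (min_le_left _ _)
  have hd : ρt ≤ κ.ρ := le_trans (min_le_right _ _) (min_le_right _ _)
  obtain ⟨δ1, hδ1, hcrit⟩ := hcrit ρt h0 ha
  obtain ⟨e1, he1, hresp⟩ := hresp ρt hb
  obtain ⟨e2, he2, hpass⟩ := hpass ρt hc
  obtain ⟨ρe, κe, H, hρe, h2, h3, hdvd, hsys⟩ := hcon (min δ1 (min e1 e2)) (lt_min hδ1 (lt_min he1 he2))
  have hP1 : (1 : ℝ) ≤ κe.P0 := by exact_mod_cast κe.hP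
  have h1 : ρe ≤ min δ1 (min e1 e2) := le_trans (le_mul_of_one_le_right hρe.le hP1) h2
  have hy : F5.Hyp κ κe ρe H := ⟨hρe, hdvd, hsys⟩
  obtain ⟨cr⟩ := hcrit κe ρe H hy (le_trans h2 (min_le_left _ _)) (le_trans h3 (min_le_left _ _))
  have hE : E4.Hyp κ κe ρe ρt H := ⟨hρe, h0, hdvd, hsys, cr⟩
  obtain ⟨⟨P, hP⟩, -⟩ := hresp ρe (le_trans h1 (le_trans (min_le_right _ _) (min_le_left _ _))) κe H hE
  have hp := hpass ρe (le_trans h1 (le_trans (min_le_right _ _) (min_le_right _ _))) κe H hE P hP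
  exact ⟨⟨κ, κe, ρe, ρt, H, hd, hy, hE, P, hP, hp⟩⟩

/-- **clauses 1 and 2 of `Top.passage`** ([E] P4.4) -/
theorem passage12 : ∃ (L D0 : ℕ) (T : ℝ), 2 ≤ L ∧ 1 ≤ D0 ∧ 0 < T ∧ E4.PassageConcl L D0 T := by
  obtain ⟨D⟩ := dyn_exists
  refine ⟨D.κ.L, D.κ.D0, _, D.κ.hL, D.κ.hD, ?_, D.pass⟩
  have hP : 0 < D.P := D.hP.1
  have : 0 < Real.sqrt (3 * D.P) := Real.sqrt_pos.2 (by linarith)
  exact div_pos Real.pi_pos this

end

end Claimed.Agent.R285.Asm
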