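import Claimed.Agent.R285.Obs.PairTD
import Claimed.Agent.R285.Asm.ConcDefs
import Claimed.Agent.R285.Rdo.Defs
import Claimed.Agent.R285.Map.Sys8

/-!
# ROW 285, ASSEMBLY 4b (owner helper27): the VOCABULARY of the top contracts (definitions only; no `sorry`)

`geo8`, `rdOf`, `Fixed.Ok`, `Fixed.Sy`, `EntK`, `SideOK`, `KFits`, `EFits`, `CutOK`, `ReadTop`.  Consumers: `Asm/Concrete.lean` (the assembly), `Asm/ReadTop.lean` (READOUT, layer B).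
ONLY helper27 EDITS THIS FILE.
-/

set_option autoImplicit false

namespace Claimed.Agent.R285.Asm

open scoped BigOperators ENNReal NNReal
open Filter Topology Claims.C0459
open Claimed.Agent.R285.RG Claimed.Agent.R285.B4 Claimed.Agent.R285.B8 Claimed.Agent.R285.Flow Claimed.Agent.R285.B10

noncomputable section

/-! ## 1. Fixed data -/

/-- the geometry of [B] s4, s8: range `p + 1`, collar `1`, radii `r₀ < R`, separation of the observation regulators -/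
def geo8 (Ck ck : ℝ) (n0 : ℕ) (cst : ℝ≥0) : Geo := ⟨Ck, ck, pp + 1, 1, r0, RR, n0, 2 * pp + 8, cst⟩

theorem geo8_ok (Ck ck : ℝ) (n0 : ℕ) (cst : ℝ≥0) (hck : 0 < ck) : (geo8 Ck ck n0 cst).Ok :=
  ⟨hck, le_rfl, by simp [geo8, pp, r0], by simp [geo8, pp, r0], by simp [geo8, RR]⟩

/-- the record of READOUT (`R285/Rdo/Defs.lean`) -/
def rdOf (K : Cfg) (𝓡 : Reg K.s) (w0 : ℝ) (j0 : ℕ) : Rd K 𝓡 where
  rV := Rdo.rV K 𝓡
  rP := Rdo.rP K 𝓡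
  rM := Rdo.rM K 𝓡 w0
  v0 := Rdo.v0 K 𝓡
  kV := Rdo.kV K 𝓡
  kP := Rdo.kP K 𝓡
  kM := Rdo.kM K 𝓡 w0
  pG := Rdo.pG K j0
  cV := Rdo.cV K 𝓡
  cP := Rdo.cP K 𝓡
  cM := Rdo.cM K 𝓡 w0

/-- the standing assumptions on the fixed data -/
structure Fixed.Ok (X : Fixed) : Prop where
  geo : X.K.c.Ok
  hR : X.K.c.R = RR
  hcol : X.K.c.col = 1
  hρ : X.K.c.ρ = pp + 1
  hF : X.K.F = Fam.entry
  hcos : X.K.cosOn = true
  hω : X.K.p.ω = ω8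
  hδ : 0 < X.K.p.δ
  hκ : 0 < X.K.p.κ
  hA1 : 1 ≤ X.K.p.A
  oa : X.o.a = k0
  hℓ : 1 ≤ X.K.s.ℓ
  hD2 : Even X.K.s.D0
  /-- real fields lie in the strips -/
  hh0 : 0 < X.K.p.h0
  /-- an unwrapped set is connected in one volume iff it is in the other -/
  hc0R : X.K.c.R ≤ X.K.c0

/-- the system of the side `2^ks` for the entry parameter `R = 2^kR` -/
abbrev Fixed.Sy (X : Fixed) (w0 : ℝ) (kR ks j0 : ℕ) (ops : X.K.Ops (X.reg (2 ^ ks) ((2 ^ kR) ^ 5))) : RawSys :=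
  X.sys (2 ^ ks) ((2 ^ kR) ^ 5) j0 ops (rdOf X.K (X.reg (2 ^ ks) ((2 ^ kR) ^ 5)) w0 j0)

/-- constants of ENTRY which are known at P13: `c0E`, `cmk`, the entry size `ε = C e^{-c R}`, `CR`, `cR` -/
abbrev EntK := Obs.EntQ

/-- **everything which is known about one side at P14**; `(oT, qA)` = the weaker norm `Obs.parT X.K.p qA`, `oT` of the unit sector -/
structure SideOK (X : Fixed) (oT : ObsPar) (qA : ℝ) (E : EntK) (κr : RawC) (d1 Hq : ℝ) (Cb : ℝ → ℝ) (cT : ℝ≥0) (kR ks j0 : ℕ)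
    (ops : X.K.Ops (X.reg (2 ^ ks) ((2 ^ kR) ^ 5))) : Prop where
  side : 2 ^ X.kq * 2 ^ kR * 2 ^ ks = X.K.s.L ^ j0
  tower : X.K.TowerOK (X.reg (2 ^ ks) ((2 ^ kR) ^ 5)) j0
  /-- terminal bound, separations `< R`, whole cells, measurable regulators, at ALL `j0 ≤ j ≤ h` -/
  geo : Rdo.TermGeo X.K (X.reg (2 ^ ks) ((2 ^ kR) ^ 5)) j0 cT
  obs : ∀ h j, j0 ≤ j → j ≤ h →
    F4a.IsObs X.o ((X.reg (2 ^ ks) ((2 ^ kR) ^ 5)).gs h) (X.K.s.lev h j) ((X.reg (2 ^ ks) ((2 ^ kR) ^ 5)).V h j)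
  sep : ∀ h j, j0 ≤ j → j ≤ h → ((X.reg (2 ^ ks) ((2 ^ kR) ^ 5)).V h j).sep ≤ 2 * pp + 8
  /-- MAP (`Map/Sys8.lean`, helper114): contains `chain : Rdo.ChainOK` (see `SideOK.chain` below) -/
  sys8 : Pack.Sys8 X.K (X.reg (2 ^ ks) ((2 ^ kR) ^ 5)) j0 X.hA κr d1 Hq Cb ops
  /-- ENTRY in all admissible volumes: `cst`, `bulk` (norm `(p, o)`), `unit` (norm `(parT p qA, oT)`), `copy` -/
  ent : Obs.EntAll X.D X.K.p (Obs.parT X.K.p qA) X.o oT E X.kq kR ks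

/-- copying in `Copy` form on ALL tori, exact identity of one step, exponential entries (helper16's interface; constant of `exp_bd` := `κr.C`) -/
theorem SideOK.chain {X : Fixed} {oT : ObsPar} {qA : ℝ} {E : EntK} {κr : RawC} {d1 Hq : ℝ} {Cb : ℝ → ℝ} {cT : ℝ≥0} {kR ks j0 : ℕ}
    {ops : X.K.Ops (X.reg (2 ^ ks) ((2 ^ kR) ^ 5))} (h : SideOK X oT qA E κr d1 Hq Cb cT kR ks j0 ops) :
    Rdo.ChainOK X.K (X.reg (2 ^ ks) ((2 ^ kR) ^ 5)) j0 κr.ρ d1 κr.C := h.sys8.chain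

/-- `K : RawK` belongs to the fixed data -/
structure KFits (X : Fixed) (K : RawK) : Prop where
  L : K.L = X.K.s.L
  D0 : K.D0 = X.K.s.D0

/-- `κe : EntC` belongs to the entry parameter `R = 2^kR` -/
structure EFits (X : Fixed) (E : EntK) (kR : ℕ) (κe : EntC) : Prop where
  q0 : κe.q0 = 2 ^ X.kq * 2 ^ kR
  P0 : κe.P0 = (2 ^ kR) ^ 5
  c : κe.c ≤ E.cR

/-! ## 2. What CUTGRID and READOUT deliver for one side -/

/-- the part of `RawReadOK` which is owed by CUTGRID -/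
structure CutOK (K : RawK) (κe : EntC) (s : ℕ) (S : RawSys) : Prop where
  cmpV : ∀ (b : ℝ) (h : ℕ), (b : ℂ) ∈ disk κe s → ValidR K κe s S.F.j0 h →
    |torVar b (K.n h) - S.cV h b| ≤ K.κ.C * ((s : ℝ) / K.n h) ^ 4 + cutR K κe s h
  cmpP : ∀ (b : ℝ) (h : ℕ), (b : ℂ) ∈ disk κe s → ValidR K κe s S.F.j0 h →
    |torPhase b (K.n h) - S.cP h b| ≤ cutR K κe s h
  cmpM : ∀ (b : ℝ) (h : ℕ), (b : ℂ) ∈ disk κe s → ValidR K κe s S.F.j0 h →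
    |torMix b (K.n h) K.w0 - S.cM h b| ≤ K.κ.C * ((s : ℝ) / K.n h) + cutR K κe s h
  lipV : ∀ (b b' : ℝ) (h : ℕ), (b : ℂ) ∈ disk κe s → (b' : ℂ) ∈ disk κe s → ValidR K κe s S.F.j0 h →
    |(torVar b (K.n h) - S.cV h b) - (torVar b' (K.n h) - S.cV h b')|
      ≤ |b - b'| * (κe.C * (K.n h : ℝ) ^ 2 * ((s : ℝ) / K.n h) ^ 4 + cutR K κe s h)
  lipP : ∀ (b b' : ℝ) (h : ℕ), (b : ℂ) ∈ disk κe s → (b' : ℂ) ∈ disk κe s → ValidR K κe s S.F.j0 h →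
    |(torPhase b (K.n h) - S.cP h b) - (torPhase b' (K.n h) - S.cP h b')| ≤ |b - b'| * cutR K κe s h

/-- what READOUT delivers for one side -/
structure ReadTop (K : RawK) (κe : EntC) (s : ℕ) (S : RawSys) : Prop where
  /-- all fields of `RawReadOK`, given CUTGRID's part -/
  read : CutOK K κe s S → RawReadOK K κe s S
  /-- [F] (trj:pure-response) = `RawMapOK.resp` -/
  resp : ∀ h, S.F.j0 ≤ h → ∀ d ∈ Metric.ball (0 : ℂ) K.d1,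
    (∀ j, S.F.j0 ≤ j → j ≤ h → ‖S.gpl d j‖ < K.κ.ρ ∧ ‖S.gtr d h j‖ < K.κ.ρ) →
    S.rV h (S.gts d h h) = S.kV h * d / (1 - S.pG h * d)
  /-- for `PureOK.resp` -/
  kV_hi : ∀ h, S.F.j0 ≤ h → 4 * |S.kV h| ≤ K.κ.C

end

end Claimed.Agent.R285.Asm
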